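import Vale.Agent.P271.H741.Sc

/-!
P271: analytic charts at the points of an affine algebra, local integrability, weights.
-/

open MeasureTheory Filter Topology Metric
open scoped ENNReal NNReal

namespace Vale.Agent.P271.H741

open Vale.Agent.P271.Sch

/-- An analytic chart of dimension `m` at the point `φ` of the affine algebra `R`, given by the
regular parameters `t`. -/
structure Chart {R : Type} [CommRing R] [Algebra ℂ R] (φ : R →ₐ[ℂ] ℂ) (m : ℕ) where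
  /-- the parametrisation -/
  ψ : (Fin m → ℂ) → (R →ₐ[ℂ] ℂ)
  /-- its radius -/
  ρ : ℝ
  ρ_pos : 0 < ρ
  zero : ψ 0 = φ
  holo : ∀ a : R, AnalyticOnNhd ℂ (fun x => ψ x a) (ball 0 ρ)
  /-- regular parameters -/
  t : Fin m → R
  coord : ∀ x ∈ ball (0 : Fin m → ℂ) ρ, ∀ j, ψ x (t j) = x j
  nhd : ∃ (F : Finset R) (ε : ℝ), 0 < ε ∧ ∀ χ : R →ₐ[ℂ] ℂ, (∀ a ∈ F, ‖χ a - φ a‖ < ε) →
    ∃ x ∈ ball (0 : Fin m → ℂ) ρ, ψ x = χ

/-- `f` is locally integrable at the point `φ` (of dimension `m`). -/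
def IntAt {R : Type} [CommRing R] [Algebra ℂ R] (m : ℕ) (φ : R →ₐ[ℂ] ℂ)
    (f : (R →ₐ[ℂ] ℂ) → ℝ≥0∞) : Prop :=
  ∃ (c : Chart φ m) (ε : ℝ), 0 < ε ∧ ε ≤ c.ρ ∧
    ∫⁻ x in ball (0 : Fin m → ℂ) ε, f (c.ψ x) < ⊤

/-- The action of `t` on the points of a graded cone: `(t • φ) a = t^k φ a` for `a ∈ A k`. -/
noncomputable def _root_.Vale.Agent.P271.Sch.GCone.tact {n : ℕ} {C : GCone n} (t : ℂ)
    (φ : C.Pt) : C.Pt := pact C.A t φ

/-- A weight `∏_a (∑_j |g_{a,j}|²)^{-κ_a}` given by finitely many families of homogeneous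
elements. -/
structure RWeight {n : ℕ} (C : GCone n) where
  /-- number of families -/
  r : ℕ
  /-- number of elements -/
  s : Fin r → ℕ
  /-- the elements -/
  g : (a : Fin r) → Fin (s a) → C.R
  /-- the degrees -/
  d : Fin r → ℕ
  /-- the exponents -/
  κ : Fin r → ℝ
  mem : ∀ a j, g a j ∈ C.A (d a)
  nonneg : ∀ a, 0 ≤ κ a
  ne : ∀ a, ∃ j, g a j ≠ 0

namespace RWeight

variable {n : ℕ} {C : GCone n}

/-- The degree of the weight. -/
noncomputable def deg (w : RWeight C) : ℝ := ∑ a, w.κ a * w.d a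

/-- The value of the weight at a point (in `[0, ∞]`). -/
noncomputable def val (w : RWeight C) (φ : C.Pt) : ℝ≥0∞ :=
  ∏ a, (ENNReal.ofReal (∑ j, ‖φ (w.g a j)‖ ^ 2)) ^ (-w.κ a)

end RWeight

/-- Final step: a weight of degree `< m`, not integrable at `φ₀`, integrable at the points near
`φ₀` which are not on its orbit, gives a generator of `K + mL` at `φ₀`. -/
def GlobEnd : Prop :=
  ∀ (n : ℕ) (C : GCone n) (m : ℕ) (φ₀ : C.Pt), GCone.NV φ₀ → ∀ w : RWeight C, w.deg < m →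
    ¬ IntAt (n + 1) φ₀ w.val →
    (∃ (F : Finset C.R) (ε : ℝ), 0 < ε ∧ ∀ φ : C.Pt, (∀ a ∈ F, ‖φ a - φ₀ a‖ < ε) →
      (∀ t : ℂ, t ≠ 0 → GCone.tact t φ₀ ≠ φ) → IntAt (n + 1) φ w.val) →
    GCone.Gen m φ₀

/-- Global generation of the multiplier ideals in bounded degree. -/
def GlobGen : Prop :=
  ∀ (n : ℕ), 1 ≤ n → ∀ (C : GCone n) (c : ℝ), ∃ M : ℕ, ∀ w : RWeight C, w.deg ≤ c →
    ∀ φ : C.Pt, GCone.NV φ → IntAt (n + 1) φ w.val →
      ∃ g ∈ C.A M, φ g ≠ 0 ∧ ∀ φ' : C.Pt, GCone.NV φ' →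
        IntAt (n + 1) φ' (fun χ => ENNReal.ofReal (‖χ g‖ ^ 2) * w.val χ)

end Vale.Agent.P271.H741
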