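import Vale.Agent.P282.Bd3.B1

/-!
P271, block GLOB-B: the action of `ℂˣ` on the finite étale cover attached to a homogeneous primitive
element of a graded extension of `ℂ[z]` (`z_j` homogeneous of degree `D`).
-/

open MeasureTheory Filter Topology
open scoped ENNReal NNReal ComplexConjugate

namespace Vale.Agent.P271.H741

open Vale.Agent.P282.L2

variable {d N : ℕ} {K : Type} [Field K] [Algebra ℂ K] [Algebra (Pol d) K]

/-- The action of `t` with weights `D` on the base and `δ` on the fibre coordinate. -/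
def act (D δ : ℕ) (t : ℂˣ) (q : (Fin d → ℂ) × ℂ) : (Fin d → ℂ) × ℂ :=
  (fun j => (t : ℂ) ^ D * q.1 j, (t : ℂ) ^ δ * q.2)

theorem act_mul (D δ : ℕ) (s t : ℂˣ) (q : (Fin d → ℂ) × ℂ) :
    act D δ (s * t) q = act D δ s (act D δ t q) := by
  simp only [act, Units.val_mul, mul_pow, mul_assoc]

theorem act_one (D δ : ℕ) (q : (Fin d → ℂ) × ℂ) : act D δ 1 q = q := by
  simp [act]

theorem act_inv_act (D δ : ℕ) (t : ℂˣ) (q : (Fin d → ℂ) × ℂ) :
    act D δ t⁻¹ (act D δ t q) = q := by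
  rw [← act_mul, inv_mul_cancel, act_one]

theorem act_act_inv (D δ : ℕ) (t : ℂˣ) (q : (Fin d → ℂ) × ℂ) :
    act D δ t (act D δ t⁻¹ q) = q := by
  rw [← act_mul, mul_inv_cancel, act_one]

/-- The substitution `z ↦ t^D z`. -/
noncomputable def sub (D : ℕ) (t : ℂˣ) : Pol d →ₐ[ℂ] Pol d :=
  MvPolynomial.aeval fun j => MvPolynomial.C ((t : ℂ) ^ D) * MvPolynomial.X j

theorem eval_sub (D : ℕ) (t : ℂˣ) (z : Fin d → ℂ) (f : Pol d) :
    MvPolynomial.eval z (sub D t f) = MvPolynomial.eval (fun j => (t : ℂ) ^ D * z j) f := by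
  have h : (MvPolynomial.eval z).comp (sub (d := d) D t).toRingHom =
      MvPolynomial.eval (fun j => (t : ℂ) ^ D * z j) := by
    refine MvPolynomial.ringHom_ext (fun c => ?_) (fun j => ?_)
    · simp [sub]
    · simp [sub]
  exact congrArg (fun φ => φ f) h

/-- The twist of a polynomial in `y` over `ℂ[z]`. -/
noncomputable def tw (D δ : ℕ) (t : ℂˣ) : Polynomial (Pol d) →+* Polynomial (Pol d) :=
  (Polynomial.compRingHom
    (Polynomial.C (MvPolynomial.C ((t : ℂ) ^ δ)) * Polynomial.X)).comp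
      (Polynomial.mapRingHom (sub (d := d) D t).toRingHom)

theorem tw_C (D δ : ℕ) (t : ℂˣ) (f : Pol d) :
    tw D δ t (Polynomial.C f) = Polynomial.C (sub D t f) := by
  simp [tw]

theorem tw_X (D δ : ℕ) (t : ℂˣ) :
    tw (d := d) D δ t Polynomial.X =
      Polynomial.C (MvPolynomial.C ((t : ℂ) ^ δ)) * Polynomial.X := by
  simp [tw]

theorem pev_tw (D δ : ℕ) (t : ℂˣ) (q : (Fin d → ℂ) × ℂ) (f : Polynomial (Pol d)) :
    pev (tw D δ t f) q = pev f (act D δ t q) := by
  have h : (Prim.pevHom q).comp (tw (d := d) D δ t) = Prim.pevHom (act D δ t q) := by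
    refine Polynomial.ringHom_ext (fun c => ?_) ?_
    · rw [RingHom.comp_apply, tw_C, Prim.pevHom_apply, Prim.pevHom_apply, Prim.pev_C, Prim.pev_C,
        eval_sub]
      rfl
    · rw [RingHom.comp_apply, tw_X, map_mul, Prim.pevHom_apply, Prim.pevHom_apply,
        Prim.pevHom_apply, Prim.pev_C, Prim.pev_X, Prim.pev_X, MvPolynomial.eval_C]
      rfl
  exact congrArg (fun φ => φ f) h

/-- A grading of `K` (given by the automorphisms `τ t`) for which the coordinates have degree `D`.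
-/
structure Gr (d : ℕ) (K : Type) [Field K] [Algebra ℂ K] [Algebra (Pol d) K] where
  /-- degree of the coordinates -/
  D : ℕ
  /-- the action of `ℂˣ` -/
  τ : ℂˣ → (K →ₐ[ℂ] K)
  τ_z : ∀ t j, τ t (algebraMap (Pol d) K (MvPolynomial.X j)) =
    algebraMap ℂ K ((t : ℂ) ^ D) * algebraMap (Pol d) K (MvPolynomial.X j)

/-- `a` is homogeneous of degree `e`. -/
def Gr.Hom (G : Gr d K) (a : K) (e : ℤ) : Prop :=
  ∀ t : ℂˣ, G.τ t a = algebraMap ℂ K ((t : ℂ) ^ e) * a

namespace Gr

variable {G : Gr d K} {a b : K} {e e' : ℤ}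

theorem Hom.mul (ha : G.Hom a e) (hb : G.Hom b e') : G.Hom (a * b) (e + e') := by
  intro t
  rw [map_mul, ha t, hb t, zpow_add₀ t.ne_zero, map_mul]
  ring

theorem Hom.add (ha : G.Hom a e) (hb : G.Hom b e) : G.Hom (a + b) e := by
  intro t
  rw [map_add, ha t, hb t]
  ring

theorem Hom.inv (ha : G.Hom a e) : G.Hom a⁻¹ (-e) := by
  intro t
  rw [map_inv₀, ha t, mul_inv, ← map_inv₀, zpow_neg]

theorem hom_one : G.Hom 1 0 := by
  intro t
  rw [map_one, zpow_zero, map_one, one_mul]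

theorem hom_zero (e : ℤ) : G.Hom 0 e := by
  intro t
  rw [map_zero, mul_zero]

theorem Hom.pow (ha : G.Hom a e) (k : ℕ) : G.Hom (a ^ k) (k * e) := by
  induction k with
  | zero => rw [pow_zero, Nat.cast_zero, zero_mul]; exact hom_one
  | succ k ih =>
    rw [pow_succ]
    have := ih.mul ha
    rwa [show (k : ℤ) * e + e = ((k + 1 : ℕ) : ℤ) * e by push_cast; ring] at this

theorem Hom.zpow (ha : G.Hom a e) (k : ℤ) : G.Hom (a ^ k) (k * e) := by
  rcases k with k | k
  · rw [Int.ofNat_eq_natCast, zpow_natCast]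
    exact ha.pow k
  · rw [zpow_negSucc, Int.negSucc_eq]
    have := (ha.pow (k + 1)).inv
    rwa [show -(((k + 1 : ℕ) : ℤ) * e) = -((k : ℤ) + 1) * e by push_cast; ring] at this

theorem Hom.prod {ι : Type*} (s : Finset ι) {a : ι → K} {e : ι → ℤ}
    (h : ∀ i ∈ s, G.Hom (a i) (e i)) : G.Hom (∏ i ∈ s, a i) (∑ i ∈ s, e i) := by
  classical
  induction s using Finset.induction_on with
  | empty => simpa using hom_one
  | insert i s hi ih =>
    rw [Finset.prod_insert hi, Finset.sum_insert hi]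
    exact (h i (Finset.mem_insert_self i s)).mul
      (ih fun j hj => h j (Finset.mem_insert_of_mem hj))

theorem Hom.sum {ι : Type*} (s : Finset ι) {a : ι → K}
    (h : ∀ i ∈ s, G.Hom (a i) e) : G.Hom (∑ i ∈ s, a i) e := by
  classical
  induction s using Finset.induction_on with
  | empty => simpa using hom_zero e
  | insert i s hi ih =>
    rw [Finset.sum_insert hi]
    exact (h i (Finset.mem_insert_self i s)).add
      (ih fun j hj => h j (Finset.mem_insert_of_mem hj))

theorem Hom.const_mul (c : ℂ) (ha : G.Hom a e) : G.Hom (algebraMap ℂ K c * a) e := by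
  intro t
  rw [map_mul, AlgHom.commutes, ha t]
  ring

variable [IsScalarTower ℂ (Pol d) K]

theorem τ_alg (G : Gr d K) (t : ℂˣ) (f : Pol d) :
    G.τ t (algebraMap (Pol d) K f) = algebraMap (Pol d) K (sub G.D t f) := by
  have h : ((G.τ t).toRingHom).comp (algebraMap (Pol d) K) =
      (algebraMap (Pol d) K).comp (sub (d := d) G.D t).toRingHom := by
    refine MvPolynomial.ringHom_ext (fun c => ?_) (fun j => ?_)
    · have h1 : algebraMap (Pol d) K (MvPolynomial.C c) = algebraMap ℂ K c :=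
        (IsScalarTower.algebraMap_apply ℂ (Pol d) K c).symm
      have h2 : sub (d := d) G.D t (MvPolynomial.C c) = MvPolynomial.C c := by simp [sub]
      show G.τ t (algebraMap (Pol d) K (MvPolynomial.C c)) =
        algebraMap (Pol d) K (sub (d := d) G.D t (MvPolynomial.C c))
      rw [h2, h1, AlgHom.commutes]
    · have h2 : sub (d := d) G.D t (MvPolynomial.X j) =
          MvPolynomial.C ((t : ℂ) ^ G.D) * MvPolynomial.X j := by simp [sub]
      show G.τ t (algebraMap (Pol d) K (MvPolynomial.X j)) =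
        algebraMap (Pol d) K (sub (d := d) G.D t (MvPolynomial.X j))
      rw [h2, G.τ_z, map_mul]
      congr 1
      exact IsScalarTower.algebraMap_apply ℂ (Pol d) K _
  exact congrArg (fun φ => φ f) h

theorem τ_aeval (G : Gr d K) {y : K} {δ : ℕ} (hy : G.Hom y δ) (t : ℂˣ) (f : Polynomial (Pol d)) :
    G.τ t (Polynomial.aeval y f) = Polynomial.aeval y (tw G.D δ t f) := by
  have h : ((G.τ t).toRingHom).comp (Polynomial.aeval y).toRingHom =
      ((Polynomial.aeval y : Polynomial (Pol d) →ₐ[Pol d] K).toRingHom).comp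
        (tw (d := d) G.D δ t) := by
    refine Polynomial.ringHom_ext (fun c => ?_) ?_
    · show G.τ t (Polynomial.aeval y (Polynomial.C c)) =
        Polynomial.aeval y (tw G.D δ t (Polynomial.C c))
      rw [tw_C, Polynomial.aeval_C, Polynomial.aeval_C, τ_alg]
    · show G.τ t (Polynomial.aeval y (Polynomial.X : Polynomial (Pol d))) =
        Polynomial.aeval y (tw G.D δ t Polynomial.X)
      rw [tw_X, map_mul, Polynomial.aeval_C, Polynomial.aeval_X, hy t, zpow_natCast]
      congr 1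
      exact IsScalarTower.algebraMap_apply ℂ (Pol d) K _
  exact congrArg (fun φ => φ f) h

variable [FaithfulSMul (Pol d) K]

theorem sub_of_hom {h : Pol d} {e : ℤ} (hh : G.Hom (algebraMap (Pol d) K h) e) (t : ℂˣ) :
    sub G.D t h = MvPolynomial.C ((t : ℂ) ^ e) * h := by
  refine FaithfulSMul.algebraMap_injective (Pol d) K ?_
  rw [← τ_alg, hh t, map_mul]
  congr 1
  exact IsScalarTower.algebraMap_apply ℂ (Pol d) K _

end Gr

/-- A homogeneous primitive element with homogeneous discriminant/denominator. -/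
structure HomPrim (G : Gr d K) (E : Prim d K) where
  /-- degree of the primitive element -/
  δ : ℕ
  /-- degree of `h` -/
  dh : ℤ
  hy : G.Hom E.y δ
  hh : G.Hom (algebraMap (Pol d) K E.h) dh

namespace HomPrim

variable [IsScalarTower ℂ (Pol d) K] [FaithfulSMul (Pol d) K]
variable {G : Gr d K} {E : Prim d K} (H : HomPrim G E) {S : Sheets d N} {a : K}
  {q : (Fin d → ℂ) × ℂ}

/-- The action on `M`. -/
def act (H : HomPrim G E) (t : ℂˣ) (q : (Fin d → ℂ) × ℂ) : (Fin d → ℂ) × ℂ :=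
  Vale.Agent.P271.H741.act G.D H.δ t q

theorem eval_h (t : ℂˣ) (z : Fin d → ℂ) :
    MvPolynomial.eval (fun j => (t : ℂ) ^ G.D * z j) E.h =
      (t : ℂ) ^ H.dh * MvPolynomial.eval z E.h := by
  rw [← eval_sub, Gr.sub_of_hom H.hh, map_mul, MvPolynomial.eval_C]

theorem act_mem (hS : E.IsSheets S) (hq : q ∈ S.M) (t : ℂˣ) : H.act t q ∈ S.M := by
  refine ⟨(hS.1 _).2 ?_, (hS.2 _ _).2 ?_⟩
  · show MvPolynomial.eval (fun j => (t : ℂ) ^ G.D * q.1 j) E.h ≠ 0
    rw [H.eval_h]
    exact mul_ne_zero (zpow_ne_zero _ t.ne_zero) (Prim.ev_h_ne_zero hS hq)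
  · have h1 : pev (minpoly (Pol d) E.y) (H.act t q) = 0 := by
      rw [act, ← pev_tw]
      have h2 : Polynomial.aeval E.y (tw G.D H.δ t (minpoly (Pol d) E.y)) =
          Polynomial.aeval E.y (0 : Polynomial (Pol d)) := by
        rw [← G.τ_aeval H.hy, minpoly.aeval, map_zero, map_zero]
      rw [Prim.pev_eq_of_aeval hS hq h2]
      simp [pev]
    exact h1

theorem act_mem_iff (hS : E.IsSheets S) (t : ℂˣ) : H.act t q ∈ S.M ↔ q ∈ S.M := by
  refine ⟨fun h => ?_, fun h => H.act_mem hS h t⟩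
  have := H.act_mem hS h t⁻¹
  rwa [act, act, act_inv_act] at this

theorem isReg_τ (ha : E.IsReg a) (t : ℂˣ) : E.IsReg (G.τ t a) ∧
    ∀ {N : ℕ} {S : Sheets d N}, E.IsSheets S → ∀ q ∈ S.M, E.ev (G.τ t a) q = E.ev a (H.act t q) := by
  obtain ⟨f, k, hf⟩ := ha
  have h1 : algebraMap (Pol d) K E.h ^ k * G.τ t a =
      Polynomial.aeval E.y (Polynomial.C (MvPolynomial.C (((t : ℂ) ^ H.dh) ^ k)⁻¹) *
        tw G.D H.δ t f) := by
    have h2 : G.τ t (algebraMap (Pol d) K E.h ^ k * a) = G.τ t (Polynomial.aeval E.y f) := by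
      rw [hf]
    rw [map_mul, map_pow, H.hh t, G.τ_aeval H.hy, mul_pow] at h2
    rw [map_mul, Polynomial.aeval_C, ← h2]
    have h3 : algebraMap (Pol d) K (MvPolynomial.C (((t : ℂ) ^ H.dh) ^ k)⁻¹) =
        (algebraMap ℂ K ((t : ℂ) ^ H.dh) ^ k)⁻¹ := by
      have := (IsScalarTower.algebraMap_apply ℂ (Pol d) K ((((t : ℂ) ^ H.dh) ^ k)⁻¹)).symm
      rw [show algebraMap ℂ (Pol d) ((((t : ℂ) ^ H.dh) ^ k)⁻¹) =
        MvPolynomial.C ((((t : ℂ) ^ H.dh) ^ k)⁻¹) from rfl] at this
      rw [this, map_inv₀, map_pow]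
    rw [h3]
    have h4 : algebraMap ℂ K ((t : ℂ) ^ H.dh) ^ k ≠ 0 := by
      refine pow_ne_zero _ ?_
      rw [Ne, FaithfulSMul.algebraMap_eq_zero_iff]
      exact zpow_ne_zero _ t.ne_zero
    field_simp
  refine ⟨⟨_, _, h1⟩, fun {N S} hS q hq => ?_⟩
  rw [Prim.ev_eq hS hq h1, Prim.ev_eq hS (H.act_mem hS hq t) hf, Prim.pev_mul, Prim.pev_C,
    MvPolynomial.eval_C, pev_tw]
  have h5 : MvPolynomial.eval (H.act t q).1 E.h = (t : ℂ) ^ H.dh * MvPolynomial.eval q.1 E.h :=
    H.eval_h t q.1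
  rw [h5, mul_pow]
  have h6 := Prim.ev_h_ne_zero hS hq
  have h7 : ((t : ℂ) ^ H.dh) ≠ 0 := zpow_ne_zero _ t.ne_zero
  show _ = pev f (Vale.Agent.P271.H741.act G.D H.δ t q) / _
  field_simp

/-- Homogeneous elements are homogeneous functions on `M`. -/
theorem ev_act (hS : E.IsSheets S) (ha : E.IsReg a) {e : ℤ} (hae : G.Hom a e) (hq : q ∈ S.M)
    (t : ℂˣ) : E.ev a (H.act t q) = (t : ℂ) ^ e * E.ev a q := by
  rw [← (H.isReg_τ ha t).2 hS q hq, hae t, Prim.ev_mul hS hq (Prim.isReg_const _) ha,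
    Prim.ev_const hS hq]

end HomPrim

end Vale.Agent.P271.H741
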