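import Vale.Agent.P271.H741.Chart
import Vale.Agent.P271.H741.Grad
import Vale.Agent.P271.GLOB.Act

/-!
P271, block GLOB-B: the homogeneous finite étale cover attached to a graded Noether normalisation of
a graded cone: points.
-/

open MeasureTheory Filter Topology Metric
open scoped ENNReal NNReal ComplexConjugate

set_option linter.unusedSectionVars false

namespace Vale.Agent.P271.H741

open Vale.Agent.P282.L2 Vale.Agent.P271.Sch

/-- A homogeneous Noether normalisation `z` (all `z_i` of degree `N`) of the graded cone `C`, a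
homogeneous primitive element `θ` of degree `e`, and a homogeneous `h ∈ ℂ[z]`. The algebra
structure of `K` over the polynomial ring is given by `z`. -/
structure Cov {n : ℕ} (C : GCone n) [Algebra (Pol (n + 1)) C.K] where
  /-- degree of the coordinates -/
  N : ℕ
  N_pos : 0 < N
  /-- the coordinates -/
  z : Fin (n + 1) → C.R
  z_mem : ∀ i, z i ∈ C.A N
  hz : ∀ i, algebraMap (Pol (n + 1)) C.K (MvPolynomial.X i) = algebraMap C.R C.K (z i)
  int : ∀ r : C.R, IsIntegral (Pol (n + 1)) (algebraMap C.R C.K r)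
  /-- the primitive element and the discriminant -/
  E : Prim (n + 1) C.K
  /-- the primitive element in `R` -/
  θ : C.R
  /-- its degree -/
  e : ℕ
  θ_mem : θ ∈ C.A e
  hθ : E.y = algebraMap C.R C.K θ
  /-- the discriminant in `R` -/
  h' : C.R
  /-- its degree -/
  dh : ℕ
  h'_mem : h' ∈ C.A dh
  hh : algebraMap (Pol (n + 1)) C.K E.h = algebraMap C.R C.K h'

namespace Cov

variable {n : ℕ} {C : GCone n} [Algebra (Pol (n + 1)) C.K] [IsScalarTower ℂ (Pol (n + 1)) C.K]
  [FaithfulSMul (Pol (n + 1)) C.K] (V : Cov C) {N' : ℕ} {S : Sheets (n + 1) N'}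
  {q : (Fin (n + 1) → ℂ) × ℂ}

/-- The grading of the fraction field. -/
noncomputable def G : Gr (n + 1) C.K where
  D := V.N
  τ := scK C.A
  τ_z := fun t j => by rw [V.hz, scK_mem C.A t (V.z_mem j)]

theorem hom_alg {a : C.R} {k : ℕ} (ha : a ∈ C.A k) : V.G.Hom (algebraMap C.R C.K a) k := by
  intro t
  show scK C.A t _ = _
  rw [scK_mem C.A t ha, zpow_natCast]

/-- The primitive element and the discriminant are homogeneous. -/
noncomputable def H : HomPrim V.G V.E where
  δ := V.e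
  dh := V.dh
  hy := by rw [V.hθ]; exact V.hom_alg V.θ_mem
  hh := by rw [V.hh]; exact V.hom_alg V.h'_mem

theorem act_mem (hS : V.E.IsSheets S) (hq : q ∈ S.M) {t : ℂ} (ht : t ≠ 0) :
    Glob.act V.N V.e t q ∈ S.M := V.H.act_mem hS hq (Units.mk0 t ht)

theorem inv (hS : V.E.IsSheets S) : Glob.Inv S V.N V.e := fun _ ht _ hq => V.act_mem hS hq ht

/-- Homogeneous elements of `K` are homogeneous functions on `M`. -/
theorem ev_act (hS : V.E.IsSheets S) {a : C.K} (ha : V.E.IsReg a) {k : ℤ} (hak : V.G.Hom a k)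
    (hq : q ∈ S.M) {t : ℂ} (ht : t ≠ 0) :
    V.E.ev a (Glob.act V.N V.e t q) = t ^ k * V.E.ev a q :=
  V.H.ev_act hS ha hak hq (Units.mk0 t ht)

theorem isReg (r : C.R) : V.E.IsReg (algebraMap C.R C.K r) := Prim.isReg_of_integral (V.int r)

/-- The value of `r ∈ R` at `q`. -/
noncomputable def f (r : C.R) (q : (Fin (n + 1) → ℂ) × ℂ) : ℂ := V.E.ev (algebraMap C.R C.K r) q

theorem f_holo (hS : V.E.IsSheets S) (r : C.R) : S.Holo (V.f r) := Prim.holo_ev hS (V.isReg r)

theorem f_act (hS : V.E.IsSheets S) {r : C.R} {k : ℕ} (hr : r ∈ C.A k) (hq : q ∈ S.M) {t : ℂ}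
    (ht : t ≠ 0) : V.f r (Glob.act V.N V.e t q) = t ^ k * V.f r q := by
  have := V.ev_act hS (V.isReg r) (V.hom_alg hr) hq ht
  rwa [zpow_natCast] at this

/-- The point of the cone under `q ∈ M`. -/
noncomputable def pt (hS : V.E.IsSheets S) (hq : q ∈ S.M) : C.Pt where
  toFun := fun r => V.f r q
  map_one' := by simp only [f, map_one]; exact Prim.ev_one hS hq
  map_mul' := fun r s => by
    simp only [f, map_mul]
    exact Prim.ev_mul hS hq (V.isReg r) (V.isReg s)
  map_zero' := by simp only [f, map_zero]; exact Prim.ev_zero hS hq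
  map_add' := fun r s => by
    simp only [f, map_add]
    exact Prim.ev_add hS hq (V.isReg r) (V.isReg s)
  commutes' := fun c => by
    show V.f (algebraMap ℂ C.R c) q = c
    rw [f, ← IsScalarTower.algebraMap_apply ℂ C.R C.K]
    exact Prim.ev_const hS hq c

theorem pt_apply (hS : V.E.IsSheets S) (hq : q ∈ S.M) (r : C.R) : V.pt hS hq r = V.f r q := rfl

theorem f_z (hS : V.E.IsSheets S) (hq : q ∈ S.M) (i : Fin (n + 1)) : V.f (V.z i) q = q.1 i := by
  rw [f, ← V.hz, Prim.ev_alg hS hq, MvPolynomial.eval_X]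

theorem f_θ (hS : V.E.IsSheets S) (hq : q ∈ S.M) : V.f V.θ q = q.2 := by
  rw [f, ← V.hθ, Prim.ev_y hS hq]

theorem f_h (hS : V.E.IsSheets S) (hq : q ∈ S.M) :
    V.f V.h' q = MvPolynomial.eval q.1 V.E.h := by
  rw [f, ← V.hh, Prim.ev_alg hS hq]

/-- The pair `(z, θ)` at a point of the cone. -/
noncomputable def qq (φ : C.Pt) : (Fin (n + 1) → ℂ) × ℂ := (fun i => φ (V.z i), φ V.θ)

theorem qq_pt (hS : V.E.IsSheets S) (hq : q ∈ S.M) : V.qq (V.pt hS hq) = q := by
  refine Prod.ext (funext fun i => ?_) ?_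
  · exact V.f_z hS hq i
  · exact V.f_θ hS hq

/-- The polynomial ring maps into `R`. -/
theorem exists_alg (f : Pol (n + 1)) : algebraMap (Pol (n + 1)) C.K f =
    algebraMap C.R C.K (MvPolynomial.aeval V.z f) := by
  have h : algebraMap (Pol (n + 1)) C.K =
      (algebraMap C.R C.K).comp (MvPolynomial.aeval V.z : Pol (n + 1) →ₐ[ℂ] C.R).toRingHom := by
    refine MvPolynomial.ringHom_ext (fun c => ?_) (fun j => ?_)
    · show algebraMap (Pol (n + 1)) C.K (MvPolynomial.C c) =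
        algebraMap C.R C.K (MvPolynomial.aeval V.z (MvPolynomial.C c))
      rw [MvPolynomial.aeval_C, ← IsScalarTower.algebraMap_apply ℂ C.R C.K]
      exact (IsScalarTower.algebraMap_apply ℂ (Pol (n + 1)) C.K c).symm
    · show algebraMap (Pol (n + 1)) C.K (MvPolynomial.X j) =
        algebraMap C.R C.K (MvPolynomial.aeval V.z (MvPolynomial.X j))
      rw [MvPolynomial.aeval_X, V.hz]
  exact congrArg (fun φ => φ f) h

theorem alg_inj : Function.Injective (algebraMap C.R C.K) := IsFractionRing.injective C.R C.K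

theorem eval_eq (φ : C.Pt) (f : Pol (n + 1)) :
    MvPolynomial.eval (fun i => φ (V.z i)) f = φ (MvPolynomial.aeval V.z f) := by
  have h : (MvPolynomial.aeval (fun i => φ (V.z i)) : Pol (n + 1) →ₐ[ℂ] ℂ) =
      φ.comp (MvPolynomial.aeval V.z) := by
    refine MvPolynomial.algHom_ext fun i => ?_
    rw [MvPolynomial.aeval_X, AlgHom.comp_apply, MvPolynomial.aeval_X]
  have := congrArg (fun g => g f) h
  simpa [MvPolynomial.aeval_eq_eval] using this

/-- A polynomial in `θ` over `ℂ[z]`, as an element of `R`. -/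
noncomputable def pR (g : Polynomial (Pol (n + 1))) : C.R :=
  Polynomial.eval₂ ((MvPolynomial.aeval V.z : Pol (n + 1) →ₐ[ℂ] C.R).toRingHom) V.θ g

theorem aeval_pR (g : Polynomial (Pol (n + 1))) :
    Polynomial.aeval V.E.y g = algebraMap C.R C.K (V.pR g) := by
  rw [pR, Polynomial.hom_eval₂, Polynomial.aeval_def, V.hθ]
  congr 1
  exact RingHom.ext fun f => V.exists_alg f

theorem pev_qq (φ : C.Pt) (g : Polynomial (Pol (n + 1))) : pev g (V.qq φ) = φ (V.pR g) := by
  have h1 : φ (V.pR g) = Polynomial.eval₂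
      ((φ : C.R →+* ℂ).comp ((MvPolynomial.aeval V.z : Pol (n + 1) →ₐ[ℂ] C.R).toRingHom))
      (φ V.θ) g := by
    rw [pR]
    exact Polynomial.hom_eval₂ g _ (φ : C.R →+* ℂ) V.θ
  have h2 : (φ : C.R →+* ℂ).comp ((MvPolynomial.aeval V.z : Pol (n + 1) →ₐ[ℂ] C.R).toRingHom) =
      MvPolynomial.eval (fun i => φ (V.z i)) := RingHom.ext fun f => (V.eval_eq φ f).symm
  rw [h1, h2, pev, Polynomial.eval_map]
  rfl

theorem h_qq (φ : C.Pt) : MvPolynomial.eval (V.qq φ).1 V.E.h = φ V.h' := by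
  have h1 : MvPolynomial.aeval V.z V.E.h = V.h' := by
    apply alg_inj
    rw [← V.exists_alg, V.hh]
  rw [← h1]
  exact V.eval_eq φ V.E.h

/-- The points of the cone with `h ≠ 0` are on `M`. -/
theorem qq_mem (hS : V.E.IsSheets S) {φ : C.Pt} (h : φ V.h' ≠ 0) : V.qq φ ∈ S.M := by
  refine ⟨(hS.1 _).2 (by rw [V.h_qq]; exact h), (hS.2 _ _).2 ?_⟩
  have h1 : pev (minpoly (Pol (n + 1)) V.E.y) (V.qq φ) = 0 := by
    rw [V.pev_qq]
    have : V.pR (minpoly (Pol (n + 1)) V.E.y) = 0 := by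
      apply alg_inj
      rw [← V.aeval_pR, minpoly.aeval, map_zero]
    rw [this, map_zero]
  exact h1

theorem ev_qq (hS : V.E.IsSheets S) {φ : C.Pt} (h : φ V.h' ≠ 0) (r : C.R) :
    V.f r (V.qq φ) = φ r := by
  obtain ⟨g, k, hg⟩ := V.isReg r
  rw [f, Prim.ev_eq hS (V.qq_mem hS h) hg, V.pev_qq, V.h_qq]
  have h1 : V.pR g = V.h' ^ k * r := by
    apply alg_inj
    rw [← V.aeval_pR, ← hg, map_mul, map_pow, V.hh]
  rw [h1, map_mul, map_pow, mul_div_cancel_left₀ _ (pow_ne_zero _ h)]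

theorem pt_qq (hS : V.E.IsSheets S) {φ : C.Pt} (h : φ V.h' ≠ 0) :
    V.pt hS (V.qq_mem hS h) = φ := AlgHom.ext fun r => V.ev_qq hS h r

theorem pt_h_ne (hS : V.E.IsSheets S) (hq : q ∈ S.M) : V.pt hS hq V.h' ≠ 0 := by
  rw [pt_apply, V.f_h hS hq]
  exact Prim.ev_h_ne_zero hS hq

theorem pt_act (hS : V.E.IsSheets S) (hq : q ∈ S.M) {t : ℂ} (ht : t ≠ 0) :
    V.pt hS (V.act_mem hS hq ht) = GCone.tact t (V.pt hS hq) := by
  refine algHom_ext_gr (A := C.A) fun k a ha => ?_
  rw [pt_apply, V.f_act hS ha hq ht, GCone.tact, pact_mem C.A t _ ha, pt_apply]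

theorem qq_tact (φ : C.Pt) (t : ℂ) : V.qq (GCone.tact t φ) = Glob.act V.N V.e t (V.qq φ) := by
  refine Prod.ext (funext fun i => ?_) ?_
  · exact pact_mem C.A t φ (V.z_mem i)
  · exact pact_mem C.A t φ V.θ_mem

end Cov

end Vale.Agent.P271.H741
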