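import Vale.Agent.P271.H741.Tube
import Vale.Agent.P271.Inst.Pt

/-!
P271, block GLOB-B: the tube data satisfy the hypotheses of the global `L²` theorem.
-/

set_option linter.unusedSectionVars false

open MeasureTheory Filter Topology Metric
open scoped ENNReal NNReal ComplexConjugate Vale.Agent.P271.Inst

namespace Vale.Agent.P271.H741

open Vale.Agent.P282.L2 Vale.Agent.P271.Sch Vale.Agent.P271.Inst

section emb

variable {n N' N e : ℕ} {S : Sheets n N'}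

/-- The action is a measurable embedding. -/
theorem measurableEmbedding_act {t : ℂ} (ht : t ≠ 0) :
    MeasurableEmbedding (Glob.act (n := n) N e t) := by
  let H : ((Fin n → ℂ) × ℂ) ≃ₜ ((Fin n → ℂ) × ℂ) :=
    { toFun := Glob.act N e t
      invFun := Glob.act N e t⁻¹
      left_inv := fun q => Glob.act_inv_act ht q
      right_inv := fun q => Glob.act_act_inv ht q
      continuous_toFun := Glob.continuous_act t
      continuous_invFun := Glob.continuous_act t⁻¹ }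
  exact H.measurableEmbedding

/-- Scaling of the integral, for arbitrary functions. -/
theorem lintegral_act' (h : Glob.Inv S N e) {t : ℂ} (ht : t ≠ 0)
    (Ψ : (Fin n → ℂ) × ℂ → ℝ≥0∞) :
    ∫⁻ q, Ψ (Glob.act N e t q) ∂S.μ =
      ENNReal.ofReal (‖t ^ N‖ ^ (2 * n))⁻¹ * ∫⁻ q, Ψ q ∂S.μ := by
  rw [← (measurableEmbedding_act ht).lintegral_map, Glob.map_act h ht, lintegral_smul_measure,
    smul_eq_mul]

end emb

variable {n : ℕ} {C : GCone n} [Algebra (Pol (n + 1)) C.K] [IsScalarTower ℂ (Pol (n + 1)) C.K]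
  [FaithfulSMul (Pol (n + 1)) C.K] {V : Cov C} {φ₀ : C.Pt} {N' : ℕ} {S : Sheets (n + 1) N'}
  {q : (Fin (n + 1) → ℂ) × ℂ}

theorem Cov.locB_f (hS : V.E.IsSheets S) (a : C.R) : Glob.LocB S (fun q => ‖V.f a q‖) := by
  obtain ⟨c, k, hc, h⟩ := Prim.ev_growth hS (⟨algebraMap C.R C.K a, V.int a⟩ : IB (n + 1) C.K)
  intro R
  refine ⟨c * (1 + max R 0) ^ k, fun q hq hR => (h q hq).trans ?_⟩
  gcongr
  exact hR.trans (le_max_left _ _)

/-- Homogeneous elements of positive degree are small near the vertex. -/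
theorem Cov.exists_lower (hS : V.E.IsSheets S) {a : C.R} {m : ℕ} (ha : a ∈ C.A m) (hm : 0 < m) :
    ∃ c0 > (0 : ℝ), ∀ q ∈ S.M, 1 ≤ ‖V.f a q‖ → c0 ≤ ‖q.1‖ := by
  obtain ⟨b, hb⟩ := V.locB_f hS a 1
  set T : ℝ := |b| + 2 with hT
  have hT1 : 1 ≤ T := by rw [hT]; linarith [abs_nonneg b]
  have hT0 : 0 < T := by linarith
  refine ⟨(T ^ V.N)⁻¹, by positivity, fun q hq h1 => ?_⟩
  by_contra hcon
  rw [not_le] at hcon
  have ht : (T : ℂ) ≠ 0 := by exact_mod_cast hT0.ne'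
  have h2 : ‖(Glob.act V.N V.e (T : ℂ) q).1‖ ≤ 1 := by
    rw [Glob.norm_act_fst, Complex.norm_real, Real.norm_of_nonneg hT0.le]
    have : T ^ V.N * ‖q.1‖ < T ^ V.N * (T ^ V.N)⁻¹ := by gcongr
    rw [mul_inv_cancel₀ (by positivity)] at this
    exact this.le
  have h3 := hb _ (V.act_mem hS hq ht) h2
  simp only at h3
  rw [V.f_act hS ha hq ht, norm_mul, norm_pow, Complex.norm_real, Real.norm_of_nonneg hT0.le] at h3
  have h4 : T ≤ T ^ m * ‖V.f a q‖ := by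
    calc T = T ^ 1 * 1 := by ring
      _ ≤ T ^ m * ‖V.f a q‖ :=
          mul_le_mul (pow_le_pow_right₀ hT1 hm) h1 zero_le_one (by positivity)
  have h5 : T ≤ b := h4.trans h3
  rw [hT] at h5
  linarith [le_abs_self b]

namespace Tube

variable (T : Tube V φ₀)

/-- A large exponent. -/
def L : ℕ := ∑ j, T.w j + 1

theorem w_le (j : Fin T.r) : T.w j ≤ T.L :=
  (Finset.single_le_sum (f := T.w) (fun _ _ => Nat.zero_le _) (Finset.mem_univ j)).trans
    (Nat.le_succ _)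

/-- The nonvanishing homogeneous function `X₀ = x₁^L`. -/
noncomputable def X0 (q : (Fin (n + 1) → ℂ) × ℂ) : ℂ := V.f (T.x T.i1 ^ T.L) q

theorem X0_eq (hS : V.E.IsSheets S) (hq : q ∈ S.M) : T.X0 q = V.f (T.x T.i1) q ^ T.L := by
  rw [X0, ← V.pt_apply hS hq, map_pow]
  rfl

theorem x_pow_mem : T.x T.i1 ^ T.L ∈ C.A (T.L * T.w T.i1) := by
  have := SetLike.pow_mem_graded T.L (T.x_mem T.i1)
  rwa [smul_eq_mul] at this

theorem X0_mul (hS : V.E.IsSheets S) (hq : q ∈ S.M) (j : Fin T.r) :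
    T.X0 q * T.ξM j q =
      V.f (T.x T.i1 ^ (T.L - T.w j) * T.x T.i0 ^ T.w j * T.x j) q := by
  rw [T.X0_eq hS hq, T.ξM_eq hS hq, ξP, eP, inv_div, div_pow]
  rw [← V.pt_apply hS hq (T.x T.i1 ^ (T.L - T.w j) * T.x T.i0 ^ T.w j * T.x j), map_mul, map_mul,
    map_pow, map_pow]
  have h1 := T.f1_ne hS hq
  have h2 : V.f (T.x T.i1) q ^ T.L = V.f (T.x T.i1) q ^ (T.L - T.w j) * V.f (T.x T.i1) q ^ T.w j := by
    rw [← pow_add, Nat.sub_add_cancel (T.w_le j)]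
  rw [h2]
  simp only [V.pt_apply]
  field_simp

/-- The hypotheses on the coordinates in the global `L²` theorem. -/
theorem coord (hS : V.E.IsSheets S) {p : (Fin (n + 1) → ℂ) → ℝ}
    (hp : ∀ a : C.K, V.E.IsReg a → Glob.Grow S p (V.E.ev a)) :
    Glob.Coord S V.N V.e p T.ξM T.X0 (T.L * T.w T.i1) where
  holo j := Prim.holo_ev hS (T.isReg_ξK j)
  inv j t ht q hq := T.ξM_act hS hq ht j
  grow k j := by
    obtain ⟨d, hd⟩ := exists_partials_of_prim V.E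
    obtain ⟨c, m, h⟩ := hp _ ((T.isReg_ξK k).d hd j)
    refine ⟨c, m, fun q hq => ?_⟩
    rw [show T.ξM k = V.E.ev (T.ξK k) from rfl, Prim.D_ev hS hd (T.isReg_ξK k) hq j]
    exact h q hq
  loc j R := by
    obtain ⟨b, hb⟩ := V.locB_f hS (T.x T.i1 ^ (T.L - T.w j) * T.x T.i0 ^ T.w j * T.x j) R
    refine ⟨b, fun q hq hR => ?_⟩
    simp only
    rw [T.X0_mul hS hq]
    exact hb q hq hR
  K_pos := Nat.mul_pos (Nat.succ_pos _) (by rw [T.hw]; exact Nat.succ_pos _)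
  X_holo := V.f_holo hS _
  X_ne q hq := by
    rw [T.X0_eq hS hq]
    exact pow_ne_zero _ (T.f1_ne hS hq)
  X_hom t ht q hq := V.f_act hS T.x_pow_mem hq ht
  X_grow := by
    have hreg : V.E.IsReg (algebraMap C.R C.K (T.x T.i1 ^ T.L))⁻¹ := by
      rw [map_pow, ← inv_pow]
      exact T.reg1.pow _
    obtain ⟨c, m, h⟩ := hp _ hreg
    refine ⟨c, m, fun q hq => ?_⟩
    have h1 := h q hq
    rwa [Prim.ev_inv hS hq (V.isReg _) hreg] at h1
  X_loc := V.locB_f hS _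

theorem hlow (hS : V.E.IsSheets S) : ∃ c0 > (0 : ℝ), ∀ q ∈ S.M, 1 ≤ ‖T.X0 q‖ → c0 ≤ ‖q.1‖ := by
  refine Cov.exists_lower hS T.x_pow_mem ?_
  exact Nat.mul_pos (Nat.succ_pos _) (by rw [T.hw]; exact Nat.succ_pos _)

/-- The square of the distance to the orbit, on points. -/
noncomputable def vP (χ : C.Pt) : ℝ := ∑ j, ‖T.ξP j χ - T.ξP j φ₀‖ ^ 2

/-- The base values. -/
noncomputable def ξ0 (j : Fin T.r) : ℂ := T.ξP j φ₀

theorem vv_eq (hS : V.E.IsSheets S) (hq : q ∈ S.M) :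
    Glob.vv T.ξM T.ξ0 q = T.vP (V.pt hS hq) := by
  unfold Glob.vv vP
  refine Finset.sum_congr rfl fun j _ => ?_
  rw [T.ξM_eq hS hq j]
  rfl

theorem vP_le {χ : C.Pt} {r0 : ℝ} (h : T.vP χ ≤ r0) (j : Fin T.r) :
    ‖T.ξP j χ - T.ξP j φ₀‖ ≤ Real.sqrt r0 := by
  apply Real.le_sqrt_of_sq_le
  refine le_trans ?_ h
  exact Finset.single_le_sum (f := fun j => ‖T.ξP j χ - T.ξP j φ₀‖ ^ 2)
    (fun _ _ => by positivity) (Finset.mem_univ j)

/-- Points of a thin tube can be moved near `φ₀`. -/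
theorem exists_near {O : Set C.Pt} (hO : O ∈ 𝓝 φ₀) : ∃ r0 > (0 : ℝ), ∀ χ : C.Pt, T.Good χ →
    T.vP χ ≤ r0 → GCone.tact (T.eP φ₀ / T.eP χ) χ ∈ O := by
  obtain ⟨F, δ, hδ, hF⟩ := mem_nhds_iff_finset.1 hO
  obtain ⟨δ', hδ', h1⟩ := near_of_gen_finset T.gen φ₀ F hδ
  set B : ℝ := ∑ j, ‖T.eP φ₀‖ ^ T.w j + 1 with hB
  have hB0 : 0 < B := by positivity
  refine ⟨(δ' / (2 * B)) ^ 2, by positivity, fun χ hχ hv => hF _ (h1 _ fun j => ?_)⟩
  rw [hχ.hat (T.eP φ₀) j, T.good₀.x_eq j, ← mul_sub, norm_mul, norm_pow]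
  have h2 := T.vP_le hv j
  rw [Real.sqrt_sq (by positivity)] at h2
  have h3 : ‖T.eP φ₀‖ ^ T.w j ≤ B := by
    rw [hB]
    have := Finset.single_le_sum (f := fun j => ‖T.eP φ₀‖ ^ T.w j)
      (fun _ _ => by positivity) (Finset.mem_univ j)
    linarith
  calc ‖T.eP φ₀‖ ^ T.w j * ‖T.ξP j χ - T.ξP j φ₀‖ ≤ B * (δ' / (2 * B)) := by gcongr
    _ = δ' / 2 := by field_simp
    _ < δ' := by linarith

end Tube

/-- Continuity of the action at `(1, φ₀)`. -/
theorem tendsto_tact (φ : C.Pt) :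
    Tendsto (fun p : ℂ × C.Pt => GCone.tact p.1 p.2) (𝓝 1 ×ˢ 𝓝 φ) (𝓝 φ) := by
  rw [tendsto_iff]
  intro a
  classical
  have h1 : ∀ (p : ℂ × C.Pt), GCone.tact p.1 p.2 a =
      ∑ k ∈ (DirectSum.decompose C.A a).support,
        p.1 ^ k * p.2 ((DirectSum.decompose C.A a k : C.A k) : C.R) := by
    intro p
    conv_lhs => rw [← DirectSum.sum_support_decompose C.A a]
    rw [map_sum]
    exact Finset.sum_congr rfl fun k _ => pact_mem C.A p.1 p.2 (SetLike.coe_mem _)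
  have h2 : φ a = ∑ k ∈ (DirectSum.decompose C.A a).support,
      1 ^ k * φ ((DirectSum.decompose C.A a k : C.A k) : C.R) := by
    conv_lhs => rw [← DirectSum.sum_support_decompose C.A a]
    rw [map_sum]
    exact Finset.sum_congr rfl fun k _ => by rw [one_pow, one_mul]
  rw [h2]
  simp_rw [h1]
  refine tendsto_finsetSum _ fun k _ => ?_
  exact ((tendsto_fst.pow k)).mul (((continuous_ev _).tendsto φ).comp tendsto_snd)

end Vale.Agent.P271.H741
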