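import Vale.Agent.P271.H741.Tube2
import Vale.Agent.P271.Inst.ChartL

/-!
P271, block GLOB-B: output of the global `L²` theorem, transferred to charts of the cone.
-/

set_option linter.unusedSectionVars false

open MeasureTheory Filter Topology Metric
open scoped ENNReal NNReal ComplexConjugate Vale.Agent.P271.Inst

namespace Vale.Agent.P271.H741

open Vale.Agent.P282.L2 Vale.Agent.P271.Sch Vale.Agent.P271.Inst

variable {n : ℕ} {C : GCone n} [Algebra (Pol (n + 1)) C.K]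

/-- The Jacobian determinant of `z` in the chart `c`. -/
noncomputable def Cov.jc (V : Cov C) {φ : C.Pt} (c : Chart φ (n + 1))
    (x : Fin (n + 1) → ℂ) : ℂ :=
  (Matrix.of fun i j => fderiv ℂ (fun y => c.ψ y (V.z i)) x (Pi.single j 1)).det

variable [IsScalarTower ℂ (Pol (n + 1)) C.K] [FaithfulSMul (Pol (n + 1)) C.K]

/-- The form `(a/b) dz_0 ∧ … ∧ dz_n` is homogeneous of degree `m`, locally `L²`; it is locally `L²`
with respect to `w` outside of the orbit of `φ₀`, and `a/b - e^l` (`e` = the function of degree one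
given by the tube data) is so near the orbit. -/
structure CoreOut (V : Cov C) {φ₀ : C.Pt} (T : Tube V φ₀) (w : RWeight C) (m : ℕ) (a b : C.R)
    (i j : ℕ) (l : ℤ) : Prop where
  l_eq : l = (m : ℤ) - (n + 1) * V.N
  a_mem : a ∈ C.A i
  b_mem : b ∈ C.A j
  b_ne : b ≠ 0
  deg : i + (n + 1) * V.N = m + j
  l2 : ∀ φ : C.Pt, GCone.NV φ → ∀ c : Chart φ (n + 1),
    LInt 0 fun x => ENNReal.ofReal (‖c.ψ x a / c.ψ x b * V.jc c x‖ ^ 2)
  near : ∃ r1 > (0 : ℝ), ∀ φ : C.Pt, T.Good φ → T.vP φ < r1 → ∀ c : Chart φ (n + 1),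
    LInt 0 fun x => ENNReal.ofReal
      (‖(c.ψ x a / c.ψ x b - T.eP (c.ψ x) ^ l) * V.jc c x‖ ^ 2) * w.val (c.ψ x)
  off : ∀ φ : C.Pt, GCone.NV φ → (∀ t : ℂ, t ≠ 0 → GCone.tact t φ₀ ≠ φ) →
    ∀ c : Chart φ (n + 1), LInt 0 fun x => ENNReal.ofReal
      (‖c.ψ x a / c.ψ x b * V.jc c x‖ ^ 2) * w.val (c.ψ x)

/-- The statement of the global theorem on the cone. -/
def CoreStatement : Prop :=
  ∀ (n : ℕ) (C : GCone n) [Algebra (Pol (n + 1)) C.K] [IsScalarTower ℂ (Pol (n + 1)) C.K]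
    [FaithfulSMul (Pol (n + 1)) C.K] (V : Cov C) (φ₀ : C.Pt) (T : Tube V φ₀) (w : RWeight C)
    (m : ℕ), w.deg < m →
    (∀ᶠ φ in 𝓝 φ₀, (∀ t : ℂ, t ≠ 0 → GCone.tact t φ₀ ≠ φ) → IntAt (n + 1) φ w.val) →
    ∃ (a b : C.R) (i j : ℕ), CoreOut V T w m a b i j ((m : ℤ) - (n + 1) * V.N)

/-- The data of `989` at a point: a cover, tube data, and `z` étale at the point. -/
structure Np {n : ℕ} (C : GCone n) (φ₀ : C.Pt) where
  /-- the algebra structure given by `z` -/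
  alg : Algebra (Pol (n + 1)) C.K
  tower : IsScalarTower ℂ (Pol (n + 1)) C.K
  faithful : FaithfulSMul (Pol (n + 1)) C.K
  /-- the cover -/
  V : Cov C
  /-- the tube data -/
  T : Tube V φ₀
  etale : ∃ D : Fin (n + 1) → Derivation ℂ C.K C.K, (∀ k, GCone.RegDer φ₀ (D k)) ∧
    GCone.RegAt φ₀ (GCone.jac V.z D) ∧ GCone.jac V.z D ≠ 0 ∧
    GCone.RegAt φ₀ (GCone.jac V.z D)⁻¹

end Vale.Agent.P271.H741
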