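import Vale.Agent.P271.H741.Off
import Vale.Agent.P271.H741.CoreDefs
import Vale.Agent.P271.H244.PshSeq
import Vale.Agent.P271.GLOB.Final
import Vale.Agent.P271.H553.InK

/-!
P271, block GLOB-B: the global `L²` theorem on the finite étale cover of the cone.
-/

set_option linter.unusedSectionVars false
set_option linter.style.haveILetI false
set_option linter.unusedVariables false

open MeasureTheory Filter Topology Metric
open scoped ENNReal NNReal ComplexConjugate Vale.Agent.P271.Inst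

namespace Vale.Agent.P271.H741

open Vale.Agent.P282.L2 Vale.Agent.P271.Sch Vale.Agent.P271.Inst

/-- Bounded parts of `M` have finite measure. -/
theorem mu_ball_lt_top {n N' : ℕ} (S : Sheets n N') (R : ℝ) :
    S.μ {q | ‖q.1‖ ≤ R} < ⊤ := by
  have hC : IsCompact (closedBall (0 : Fin n → ℂ) R) := isCompact_closedBall _ _
  set C := closedBall (0 : Fin n → ℂ) R with hCdef
  have hset : {q : (Fin n → ℂ) × ℂ | ‖q.1‖ ≤ R} = {q | q.1 ∈ C} := by
    ext q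
    simp [hCdef]
  rw [hset]
  have hm : MeasurableSet {q : (Fin n → ℂ) × ℂ | q.1 ∈ C} := measurable_fst hC.measurableSet
  rw [← lintegral_indicator_one hm, Sheets.lintegral_μ (measurable_one.indicator hm)]
  have h1 : ∫⁻ z in S.V, ∑ w ∈ S.fib z,
      ({q : (Fin n → ℂ) × ℂ | q.1 ∈ C}.indicator 1 (z, w) : ℝ≥0∞) ≤
      ∫⁻ z in S.V, C.indicator (fun _ => (N' : ℝ≥0∞)) z := by
    refine lintegral_mono_ae ?_
    filter_upwards [ae_restrict_mem S.isOpen.measurableSet] with z hz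
    by_cases hzC : z ∈ C
    · rw [Set.indicator_of_mem hzC]
      calc ∑ w ∈ S.fib z, ({q : (Fin n → ℂ) × ℂ | q.1 ∈ C}.indicator 1 (z, w) : ℝ≥0∞)
          ≤ ∑ w ∈ S.fib z, (1 : ℝ≥0∞) := Finset.sum_le_sum fun w _ =>
            Set.indicator_le_self _ (1 : (Fin n → ℂ) × ℂ → ℝ≥0∞) (z, w)
        _ = (N' : ℝ≥0∞) := by rw [Finset.sum_const, Sheets.card_fib hz, nsmul_eq_mul, mul_one]
    · rw [Set.indicator_of_notMem hzC]
      refine le_of_eq (Finset.sum_eq_zero fun w _ => ?_)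
      have hn : (z, w) ∉ {q : (Fin n → ℂ) × ℂ | q.1 ∈ C} := hzC
      exact Set.indicator_of_notMem hn _
  refine h1.trans_lt ?_
  refine (lintegral_mono' Measure.restrict_le_self le_rfl).trans_lt ?_
  rw [lintegral_indicator_const hC.measurableSet]
  exact ENNReal.mul_lt_top (by simp) hC.measure_lt_top

/-- A primitive element gives a finite extension. -/
theorem finiteDim_of_prim {n : ℕ} {K : Type} [Field K] [Algebra ℂ K] [Algebra (Pol n) K]
    [IsScalarTower ℂ (Pol n) K] [FaithfulSMul (Pol n) K] [Algebra (FractionRing (Pol n)) K]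
    [IsScalarTower (Pol n) (FractionRing (Pol n)) K] (E : Prim n K) :
    FiniteDimensional (FractionRing (Pol n)) K := by
  have hy : IsIntegral (FractionRing (Pol n)) E.y := E.integral.tower_top
  have htop : (⊤ : Subalgebra (FractionRing (Pol n)) K) = Algebra.adjoin _ {E.y} := by
    refine (eq_top_iff.2 fun a _ => ?_).symm
    obtain ⟨f, c, hc, h⟩ := E.gen a
    have hc' : algebraMap (Pol n) K c ≠ 0 := fun h0 =>
      hc (FaithfulSMul.algebraMap_injective (Pol n) K (by rw [h0, map_zero]))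
    have ha : a = (algebraMap (Pol n) (FractionRing (Pol n)) c)⁻¹ •
        Polynomial.aeval E.y (f.map (algebraMap (Pol n) (FractionRing (Pol n)))) := by
      rw [Polynomial.aeval_map_algebraMap, ← h, Algebra.smul_def, map_inv₀,
        ← IsScalarTower.algebraMap_apply]
      field_simp
    rw [ha]
    exact Subalgebra.smul_mem _ (Polynomial.aeval_mem_adjoin_singleton _ _) _
  have h1 : Module.Finite (FractionRing (Pol n)) (Algebra.adjoin (FractionRing (Pol n)) {E.y}) :=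
    Algebra.finite_adjoin_simple_of_isIntegral hy
  rw [← htop] at h1
  exact Module.Finite.equiv (Subalgebra.topEquiv (R := FractionRing (Pol n)) (A := K)).toLinearEquiv

variable {n : ℕ} {C : GCone n} [Algebra (Pol (n + 1)) C.K] [IsScalarTower ℂ (Pol (n + 1)) C.K]
  [FaithfulSMul (Pol (n + 1)) C.K] {V : Cov C} {φ₀ : C.Pt} {N' : ℕ} {S : Sheets (n + 1) N'}
  {q : (Fin (n + 1) → ℂ) × ℂ}

/-! ### The weight on `M` -/

/-- The weight on `M`. -/
noncomputable def wM (V : Cov C) (w : RWeight C) (q : (Fin (n + 1) → ℂ) × ℂ) : ℝ≥0∞ :=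
  ∏ a, (ENNReal.ofReal (∑ j, ‖V.f (w.g a j) q‖ ^ 2)) ^ (-w.κ a)

theorem wM_eq (hS : V.E.IsSheets S) (hq : q ∈ S.M) (w : RWeight C) :
    wM V w q = w.val (V.pt hS hq) := rfl

theorem wData (V : Cov C) (hS : V.E.IsSheets S) (w : RWeight C) :
    H244.WData S V.N V.e w.s (fun a j => V.f (w.g a j)) w.d w.κ where
  holo a j := V.f_holo hS _
  loc a j := V.locB_f hS _
  hom a j t ht q hq := V.f_act hS (w.mem a j) hq ht
  nonneg a := w.nonneg a

theorem weight (V : Cov C) (hS : V.E.IsSheets S) (w : RWeight C) :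
    Glob.Weight S V.N V.e (H244.wPhi (fun a j => V.f (w.g a j)) w.κ) (wM V w) w.deg := by
  have h := (wData V hS w).weight
  exact h

/-- A positive lower bound of the weight over bounded sets. -/
theorem exists_weight_lower {n N' N e : ℕ} {S : Sheets n N'} {φ : ℕ → (Fin n → ℂ) × ℂ → ℝ}
    {W : (Fin n → ℂ) × ℂ → ℝ≥0∞} {c : ℝ} (h : Glob.Weight S N e φ W c) (R : ℝ) :
    ∃ b : ℝ, ∀ q ∈ S.M, ‖q.1‖ ≤ R → ENNReal.ofReal (Real.exp (-b)) ≤ W q := by
  obtain ⟨b, hb⟩ := h.loc R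
  refine ⟨b, fun q hq hR => ?_⟩
  rw [h.sup q hq]
  refine le_trans ?_ (le_iSup _ 0)
  exact ENNReal.ofReal_le_ofReal (Real.exp_le_exp.2 (neg_le_neg (hb q hq hR)))

/-! ### The function of degree one -/

namespace Tube

variable (T : Tube V φ₀)

theorem isReg_zpow (l : ℤ) : V.E.IsReg (T.eK ^ l) := by
  rcases l with k | k
  · rw [Int.ofNat_eq_natCast, zpow_natCast]
    exact T.isReg_eK.pow k
  · rw [zpow_negSucc, ← inv_pow]
    exact T.isReg_eK_inv.pow _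

theorem ev_zpow (hS : V.E.IsSheets S) (hq : q ∈ S.M) (l : ℤ) :
    V.E.ev (T.eK ^ l) q = T.eM q ^ l := by
  rcases l with k | k
  · rw [Int.ofNat_eq_natCast, zpow_natCast, zpow_natCast, Prim.ev_pow hS hq T.isReg_eK]
    rfl
  · rw [zpow_negSucc, zpow_negSucc, ← inv_pow, ← inv_pow, Prim.ev_pow hS hq T.isReg_eK_inv,
      Prim.ev_inv hS hq T.isReg_eK T.isReg_eK_inv]
    rfl

theorem holo_zpow (hS : V.E.IsSheets S) (l : ℤ) : S.Holo fun q => T.eM q ^ l := by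
  have h := Prim.holo_ev hS (T.isReg_zpow l)
  intro W s hs
  exact (h W s hs).congr fun z hz => (T.ev_zpow hS (show ((z, s z) : (Fin (n + 1) → ℂ) × ℂ) ∈ S.M from ⟨hs.subset hz, hs.mem z hz⟩) l).symm

theorem zpow_act (hS : V.E.IsSheets S) (hq : q ∈ S.M) {t : ℂ} (ht : t ≠ 0) (l : ℤ) :
    T.eM (Glob.act V.N V.e t q) ^ l = t ^ l * T.eM q ^ l := by
  rw [T.eM_act hS hq ht, mul_zpow]

/-- The function of degree one is bounded above and below on shells of a thin tube. -/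
theorem eM_bdd (hS : V.E.IsSheets S) : ∃ r1 > (0 : ℝ), ∀ c R : ℝ, 0 < c →
    ∃ a b : ℝ, 0 < a ∧ ∀ q ∈ S.M, c ≤ ‖q.1‖ → ‖q.1‖ ≤ R → Glob.vv T.ξM T.ξ0 q ≤ r1 →
      a ≤ ‖T.eM q‖ ∧ ‖T.eM q‖ ≤ b := by
  have hξ1 : 0 < ‖T.ξP T.i1 φ₀‖ := norm_pos_iff.2 T.good₀.ξ1_ne
  set ξ1 := ‖T.ξP T.i1 φ₀‖ with hξ1def
  refine ⟨(ξ1 / 2) ^ 2, by positivity, fun c R hc => ?_⟩
  -- upper bound
  obtain ⟨B, hB⟩ := V.locB_f hS (T.x T.i1) R
  -- bounds for the coordinates at the normalised points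
  set B2 : ℝ := ∑ j, ‖T.ξP j φ₀‖ + ξ1 / 2 with hB2
  choose b3 hb3 using fun i => bdd_of_gen T.gen (V.z i) B2
  set b4 : ℝ := ∑ i, |b3 i| + 1 with hb4
  have hb4pos : 0 < b4 := by positivity
  refine ⟨min 1 (c / b4), max 1 (B / (ξ1 / 2)), by positivity, fun q hq h1 h2 h3 => ?_⟩
  have hgood := T.good_pt hS hq
  rw [T.vv_eq hS hq] at h3
  have hξ : ∀ j, ‖T.ξP j (V.pt hS hq) - T.ξP j φ₀‖ ≤ ξ1 / 2 := by
    intro j
    have := T.vP_le h3 j
    rwa [Real.sqrt_sq (by positivity)] at this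
  have he := T.eM_ne hS hq
  have hepos : 0 < ‖T.eM q‖ := norm_pos_iff.2 he
  constructor
  · -- lower bound
    have ht : (1 / T.eM q) ≠ 0 := one_div_ne_zero he
    have h4 : ∀ j, ‖V.pt hS (V.act_mem hS hq ht) (T.x j)‖ ≤ B2 := by
      intro j
      rw [V.pt_act hS hq ht, T.eM_eq hS hq, hgood.hat 1 j, one_pow, one_mul]
      have h5 : T.ξP j (V.pt hS hq) = (T.ξP j (V.pt hS hq) - T.ξP j φ₀) + T.ξP j φ₀ := by ring
      rw [h5]
      refine (norm_add_le _ _).trans ?_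
      have h6 : ‖T.ξP j φ₀‖ ≤ ∑ j, ‖T.ξP j φ₀‖ :=
        Finset.single_le_sum (f := fun j => ‖T.ξP j φ₀‖) (fun _ _ => norm_nonneg _)
          (Finset.mem_univ j)
      rw [hB2]
      linarith [hξ j]
    have h5 : ‖(Glob.act V.N V.e (1 / T.eM q) q).1‖ ≤ b4 := by
      rw [pi_norm_le_iff_of_nonneg hb4pos.le]
      intro i
      have h6 := hb3 i _ h4
      rw [V.pt_apply, V.f_z hS (V.act_mem hS hq ht)] at h6
      have h7 : |b3 i| ≤ ∑ i, |b3 i| :=
        Finset.single_le_sum (f := fun i => |b3 i|) (fun _ _ => abs_nonneg _) (Finset.mem_univ i)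
      rw [hb4]
      linarith [le_abs_self (b3 i)]
    rw [Glob.norm_act_fst, norm_div, norm_one, div_pow, one_pow, div_mul_eq_mul_div, one_mul,
      div_le_iff₀ (by positivity)] at h5
    by_cases h1e : 1 ≤ ‖T.eM q‖
    · exact (min_le_left _ _).trans h1e
    · refine (min_le_right _ _).trans ?_
      rw [div_le_iff₀ hb4pos]
      have h6 : ‖T.eM q‖ ^ V.N ≤ ‖T.eM q‖ := by
        conv_rhs => rw [← pow_one ‖T.eM q‖]
        exact pow_le_pow_of_le_one hepos.le (not_le.1 h1e).le V.N_pos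
      calc c ≤ ‖q.1‖ := h1
        _ ≤ b4 * ‖T.eM q‖ ^ V.N := h5
        _ ≤ b4 * ‖T.eM q‖ := by gcongr
        _ = ‖T.eM q‖ * b4 := mul_comm _ _
  · -- upper bound
    by_cases h1e : ‖T.eM q‖ ≤ 1
    · exact h1e.trans (le_max_left _ _)
    · refine le_trans ?_ (le_max_right _ _)
      rw [le_div_iff₀ (by positivity)]
      have h4 := hB q hq h2
      simp only at h4
      rw [← V.pt_apply hS hq, hgood.x_eq T.i1, norm_mul, norm_pow] at h4
      have h5 : ξ1 / 2 ≤ ‖T.ξP T.i1 (V.pt hS hq)‖ := by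
        have h6 := hξ T.i1
        have h7 : ξ1 ≤ ‖T.ξP T.i1 (V.pt hS hq) - T.ξP T.i1 φ₀‖ + ‖T.ξP T.i1 (V.pt hS hq)‖ := by
          rw [hξ1def, ← norm_neg (T.ξP T.i1 (V.pt hS hq) - T.ξP T.i1 φ₀)]
          refine le_trans (le_of_eq ?_) (norm_add_le _ _)
          congr 1
          ring
        linarith
      have h6 : ‖T.eM q‖ ≤ ‖T.eP (V.pt hS hq)‖ ^ T.w T.i1 := by
        rw [← T.eM_eq hS hq]
        conv_lhs => rw [← pow_one ‖T.eM q‖]
        refine pow_le_pow_right₀ (not_le.1 h1e).le ?_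
        rw [T.hw]
        exact Nat.succ_pos _
      calc ‖T.eM q‖ * (ξ1 / 2) ≤ ‖T.eP (V.pt hS hq)‖ ^ T.w T.i1 * ‖T.ξP T.i1 (V.pt hS hq)‖ := by
            gcongr
        _ ≤ B := h4

/-- Powers of the function of degree one are bounded on shells of a thin tube. -/
theorem zpow_bdd (hS : V.E.IsSheets S) (l : ℤ) : ∃ r1 > (0 : ℝ), ∀ c R : ℝ, 0 < c →
    ∃ B : ℝ, ∀ q ∈ S.M, c ≤ ‖q.1‖ → ‖q.1‖ ≤ R → Glob.vv T.ξM T.ξ0 q ≤ r1 →
      ‖T.eM q ^ l‖ ≤ B := by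
  obtain ⟨r1, hr1, h⟩ := T.eM_bdd hS
  refine ⟨r1, hr1, fun c R hc => ?_⟩
  obtain ⟨a, b, ha, hab⟩ := h c R hc
  have hcont : ContinuousOn (fun x : ℝ => x ^ l) (Set.Icc a b) :=
    continuousOn_id.zpow₀ l fun x hx => Or.inl (ha.trans_le hx.1).ne'
  obtain ⟨B, hB⟩ := isCompact_Icc.exists_bound_of_continuousOn hcont
  refine ⟨B, fun q hq h1 h2 h3 => ?_⟩
  have h4 := hB ‖T.eM q‖ (hab q hq h1 h2 h3)
  rw [norm_zpow]
  exact (le_abs_self _).trans h4

end Tube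

/-! ### The global theorem -/

/-- The local hypothesis on the cover. -/
def HypInt (T : Tube V φ₀) (S : Sheets (n + 1) N') (w : RWeight C) (l : ℤ) : Prop :=
  ∃ r0 > (0 : ℝ), ∀ r1 > (0 : ℝ),
    ∫⁻ q in {q | 1 ≤ ‖T.X0 q‖ ∧ ‖T.X0 q‖ ≤ 2 ^ (T.L * T.w T.i1) ∧
      r1 ≤ Glob.vv T.ξM T.ξ0 q ∧ Glob.vv T.ξM T.ξ0 q ≤ r0},
      ENNReal.ofReal (‖T.eM q ^ l‖ ^ 2) * wM V w q ∂S.μ < ⊤

/-- The output of the global theorem on the cover. -/
abbrev MOut (T : Tube V φ₀) (S : Sheets (n + 1) N') (w : RWeight C) (l : ℤ)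
    (F : (Fin (n + 1) → ℂ) × ℂ → ℂ) : Prop :=
  Glob.GlobOut S V.N V.e T.ξM T.ξ0 (fun q => T.eM q ^ l) l (wM V w) F

theorem exists_globOut (hS : V.E.IsSheets S) (T : Tube V φ₀) (w : RWeight C) {m : ℕ}
    (hdeg : w.deg < m) {l : ℤ} (hl : l = (m : ℤ) - (n + 1) * V.N) (hint : HypInt T S w l) :
    ∃ F, MOut T S w l F := by
  obtain ⟨p, Cp, k0, hexh, hgr⟩ := Prim.exists_exh hS
  obtain ⟨r0, hr0, hint⟩ := hint
  obtain ⟨c0, hc0, hlow⟩ := T.hlow hS
  have hp : ∀ a : C.K, V.E.IsReg a → Glob.Grow S p (V.E.ev a) := fun a ha => hgr a ha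
  refine Glob.glob (n + 1) N' S V.N V.e p Cp k0
    ⟨V.N_pos, fun t ht q hq => V.act_mem hS hq ht, hexh⟩ T.r T.ξM T.X0 _ (T.coord hS hp) T.ξ0 _ _
    (T.holo_zpow hS l) ?_ (fun t ht q hq => T.zpow_act hS hq ht l) _ (wM V w) w.deg
    (weight V hS w) ?_ r0 hr0 ⟨c0, hc0, fun q hq h1 _ _ => hlow q hq h1⟩ hint
  · obtain ⟨c, k, h⟩ := hp _ (T.isReg_zpow l)
    refine ⟨c, k, fun q hq => ?_⟩
    have h1 := h q hq
    rw [T.ev_zpow hS hq l] at h1
    exact h1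
  · rw [hl]
    push_cast
    linarith

theorem nullMeas_ge (hS : V.E.IsSheets S) (T : Tube V φ₀) (ρ : ℝ) :
    NullMeasurableSet {q | ρ ≤ Glob.vv T.ξM T.ξ0 q} S.μ :=
  nullMeasurableSet_le aemeasurable_const
    (Glob.vv_aemeas fun k => Prim.holo_ev hS (T.isReg_ξK k))

theorem nullMeas_le (hS : V.E.IsSheets S) (T : Tube V φ₀) (ρ : ℝ) :
    NullMeasurableSet {q | Glob.vv T.ξM T.ξ0 q ≤ ρ} S.μ :=
  nullMeasurableSet_le (Glob.vv_aemeas fun k => Prim.holo_ev hS (T.isReg_ξK k))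
    aemeasurable_const

theorem meas_R (R : ℝ) : MeasurableSet {q : (Fin (n + 1) → ℂ) × ℂ | ‖q.1‖ ≤ R} :=
  measurableSet_le (measurable_fst.norm) measurable_const

theorem meas_c (c : ℝ) : MeasurableSet {q : (Fin (n + 1) → ℂ) × ℂ | c ≤ ‖q.1‖} :=
  measurableSet_le measurable_const (measurable_fst.norm)

/-- `F` is `L²` on shells. -/
theorem F_shell (hS : V.E.IsSheets S) (T : Tube V φ₀) (w : RWeight C) {l : ℤ}
    {F : (Fin (n + 1) → ℂ) × ℂ → ℂ} (hF : MOut T S w l F) {c R : ℝ} (hc : 0 < c) :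
    ∫⁻ q in {q | c ≤ ‖q.1‖ ∧ ‖q.1‖ ≤ R}, ENNReal.ofReal (‖F q‖ ^ 2) ∂S.μ < ⊤ := by
  obtain ⟨r1, hr1, hnear⟩ := hF.near
  obtain ⟨r2, hr2, hbd⟩ := T.zpow_bdd hS l
  obtain ⟨b, hb⟩ := exists_weight_lower (weight V hS w) R
  obtain ⟨B, hB⟩ := hbd c R hc
  set ρ := min r1 r2 with hρ
  have hρ0 : 0 < ρ := lt_min hr1 hr2
  set k : ℝ≥0∞ := ENNReal.ofReal (Real.exp (-b)) with hk
  have hk0 : k ≠ 0 := (ENNReal.ofReal_pos.2 (Real.exp_pos _)).ne'
  have hkt : k ≠ ⊤ := ENNReal.ofReal_ne_top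
  have hkey : ∀ q ∈ S.M, ‖q.1‖ ≤ R → ∀ x : ℝ≥0∞, x ≤ k⁻¹ * (x * wM V w q) := by
    intro q hq hR x
    calc x = k⁻¹ * (x * k) := by
          rw [mul_comm x k, ← mul_assoc, ENNReal.inv_mul_cancel hk0 hkt, one_mul]
      _ ≤ k⁻¹ * (x * wM V w q) := by
          gcongr
          exact hb q hq hR
  set A : Set ((Fin (n + 1) → ℂ) × ℂ) :=
    {q | (c ≤ ‖q.1‖ ∧ ‖q.1‖ ≤ R) ∧ Glob.vv T.ξM T.ξ0 q ≤ ρ} with hA
  set D : Set ((Fin (n + 1) → ℂ) × ℂ) := {q | ‖q.1‖ ≤ R ∧ ρ ≤ Glob.vv T.ξM T.ξ0 q} with hD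
  have hsub : {q : (Fin (n + 1) → ℂ) × ℂ | c ≤ ‖q.1‖ ∧ ‖q.1‖ ≤ R} ⊆ A ∪ D := by
    intro q hq
    rcases le_total (Glob.vv T.ξM T.ξ0 q) ρ with h | h
    · exact Or.inl ⟨hq, h⟩
    · exact Or.inr ⟨hq.2, h⟩
  refine (lintegral_mono_set hsub).trans_lt ?_
  refine (lintegral_union_le _ _ _).trans_lt (ENNReal.add_lt_top.2 ⟨?_, ?_⟩)
  · -- near the orbit
    have hAn : NullMeasurableSet A S.μ :=
      ((meas_c c).inter (meas_R R)).nullMeasurableSet.inter (nullMeas_le hS T ρ)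
    have h1 : ∫⁻ q in A, ENNReal.ofReal (‖F q‖ ^ 2) ∂S.μ ≤
        ∫⁻ q in A, (2 * k⁻¹ * (ENNReal.ofReal (‖F q - T.eM q ^ l‖ ^ 2) * wM V w q) +
          ENNReal.ofReal (2 * B ^ 2)) ∂S.μ := by
      refine lintegral_mono_ae ?_
      filter_upwards [ae_restrict_mem₀ hAn, ae_restrict_of_ae (Sheets.ae_mem_M (S := S))] with q hqA hq
      have h2 : ‖F q‖ ^ 2 ≤ 2 * ‖F q - T.eM q ^ l‖ ^ 2 + 2 * B ^ 2 := by
        have h3 : ‖T.eM q ^ l‖ ≤ B := hB q hq hqA.1.1 hqA.1.2 (hqA.2.trans (min_le_right _ _))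
        have h4 : ‖F q‖ ≤ ‖F q - T.eM q ^ l‖ + ‖T.eM q ^ l‖ := by
          have := norm_add_le (F q - T.eM q ^ l) (T.eM q ^ l)
          rwa [sub_add_cancel] at this
        have h5 : ‖F q‖ ≤ ‖F q - T.eM q ^ l‖ + B := h4.trans (by linarith)
        have h6 : ‖F q‖ ^ 2 ≤ (‖F q - T.eM q ^ l‖ + B) ^ 2 :=
          pow_le_pow_left₀ (norm_nonneg _) h5 2
        nlinarith [sq_nonneg (‖F q - T.eM q ^ l‖ - B)]
      calc ENNReal.ofReal (‖F q‖ ^ 2)
          ≤ ENNReal.ofReal (2 * ‖F q - T.eM q ^ l‖ ^ 2 + 2 * B ^ 2) := ENNReal.ofReal_le_ofReal h2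
        _ = 2 * ENNReal.ofReal (‖F q - T.eM q ^ l‖ ^ 2) + ENNReal.ofReal (2 * B ^ 2) := by
            rw [ENNReal.ofReal_add (by positivity) (by positivity),
              ENNReal.ofReal_mul (by norm_num), ENNReal.ofReal_ofNat]
        _ ≤ _ := by
            rw [mul_assoc]
            gcongr
            exact hkey q hq hqA.1.2 _
    refine h1.trans_lt ?_
    rw [lintegral_add_right _ measurable_const]
    refine ENNReal.add_lt_top.2 ⟨?_, ?_⟩
    · rw [lintegral_const_mul' _ _ (ENNReal.mul_ne_top (by norm_num) (ENNReal.inv_ne_top.2 hk0))]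
      refine ENNReal.mul_lt_top (ENNReal.mul_lt_top (by norm_num)
        (ENNReal.inv_lt_top.2 (pos_iff_ne_zero.2 hk0))) ?_
      refine (lintegral_mono_set ?_).trans_lt (hnear R)
      exact fun q hq => ⟨hq.1.2, hq.2.trans (min_le_left _ _)⟩
    · rw [lintegral_const, Measure.restrict_apply_univ]
      refine ENNReal.mul_lt_top ENNReal.ofReal_lt_top ?_
      exact (measure_mono fun q hq => hq.1.2).trans_lt (mu_ball_lt_top S R)
  · -- away from the orbit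
    have hDn : NullMeasurableSet D S.μ :=
      (meas_R R).nullMeasurableSet.inter (nullMeas_ge hS T ρ)
    have h1 : ∫⁻ q in D, ENNReal.ofReal (‖F q‖ ^ 2) ∂S.μ ≤
        ∫⁻ q in D, k⁻¹ * (ENNReal.ofReal (‖F q‖ ^ 2) * wM V w q) ∂S.μ := by
      refine lintegral_mono_ae ?_
      filter_upwards [ae_restrict_mem₀ hDn, ae_restrict_of_ae (Sheets.ae_mem_M (S := S))] with q hqD hq
      exact hkey q hq hqD.1 _
    refine h1.trans_lt ?_
    rw [lintegral_const_mul' _ _ (ENNReal.inv_ne_top.2 hk0)]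
    exact ENNReal.mul_lt_top (ENNReal.inv_lt_top.2 (pos_iff_ne_zero.2 hk0)) (hF.off R ρ hρ0)

theorem V_nonempty (hS : V.E.IsSheets S) : S.V.Nonempty := by
  have h0 : V.E.h ≠ 0 := V.E.h0
  by_contra hcon
  apply h0
  apply MvPolynomial.funext
  intro z
  rw [map_zero]
  by_contra hz
  exact hcon ⟨z, (hS.1 z).2 hz⟩

/-- The element of `K` given by `F`. -/
theorem exists_elt (hS : V.E.IsSheets S) (T : Tube V φ₀) (w : RWeight C) {l : ℤ}
    (hl : 0 < l + (n + 1) * V.N) {F : (Fin (n + 1) → ℂ) × ℂ → ℂ} (hF : MOut T S w l F) :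
    ∃ f : C.K, V.E.IsReg f ∧ (∀ q ∈ S.M, V.E.ev f q = F q) ∧ V.G.Hom f l := by
  letI : Algebra (FractionRing (Pol (n + 1))) C.K := FractionRing.liftAlgebra (Pol (n + 1)) C.K
  haveI : IsScalarTower (Pol (n + 1)) (FractionRing (Pol (n + 1))) C.K :=
    FractionRing.isScalarTower_liftAlgebra (Pol (n + 1)) C.K
  haveI : FiniteDimensional (FractionRing (Pol (n + 1))) C.K := finiteDim_of_prim V.E
  obtain ⟨g, f, hf, hfF, -, -, -⟩ := Avg.inK_shell (Nat.succ_pos n) hS V.N_pos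
    (V.inv hS) hF.holo l (by push_cast; exact hl) hF.hom (fun c R hc => F_shell hS T w hF hc)
  refine ⟨f, hf, hfF, fun t => ?_⟩
  have h1 := V.H.isReg_τ hf t
  rw [← sub_eq_zero]
  refine Prim.eq_zero_of_ev hS (h1.1.sub ((Prim.isReg_const _).mul hf)) isOpen_univ
    (by rw [Set.univ_inter]; exact V_nonempty hS) (fun q hq _ => ?_)
  rw [Prim.ev_sub hS hq h1.1 ((Prim.isReg_const _).mul hf), h1.2 hS q hq,
    Prim.ev_mul hS hq (Prim.isReg_const _) hf, Prim.ev_const hS hq]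
  have h2 := hF.hom t t.ne_zero q hq
  rw [← hfF q hq, ← hfF _ (V.act_mem hS hq t.ne_zero)] at h2
  rw [sub_eq_zero]
  exact h2

end Vale.Agent.P271.H741
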