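import Vale.Agent.P271.H741.Core1
import Vale.Agent.P271.H879.Chart
import Vale.Agent.P271.H879.Null
import Vale.Agent.P271.H408.ChartJc
import Vale.Agent.P271.H884.HypH
import Vale.Agent.P271.GLOB.HomFrac

/-!
P271, block GLOB-B: the global theorem on the cone, in charts.
-/

set_option linter.unusedSectionVars false
set_option linter.unusedVariables false

open MeasureTheory Filter Topology Metric
open scoped ENNReal NNReal ComplexConjugate Vale.Agent.P271.Inst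

namespace Vale.Agent.P271.H741

open Vale.Agent.P282.L2 Vale.Agent.P271.Sch Vale.Agent.P271.Inst

/-- The zero set of a nonzero element in a chart is a null set. -/
theorem chart_null {n : ℕ} {C : GCone n} {φ : C.Pt} (c : Chart φ (n + 1)) {f : C.R} (hf : f ≠ 0) :
    volume {x ∈ ball (0 : Fin (n + 1) → ℂ) c.ρ | c.ψ x f = 0} = 0 := by
  have := C.finiteType
  have h1 := H879.chart_inj c hf (mem_ball_self c.ρ_pos)
  obtain ⟨x0, hx0, h0⟩ : ∃ x0 ∈ ball (0 : Fin (n + 1) → ℂ) c.ρ, c.ψ x0 f ≠ 0 := by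
    by_contra hcon
    push Not at hcon
    apply h1
    filter_upwards [ball_mem_nhds (0 : Fin (n + 1) → ℂ) c.ρ_pos] with z hz using hcon z hz
  exact H879.null_zeros volume (f := fun x => c.ψ x f) (c := 0) (r := c.ρ)
    (c.holo f).differentiableOn hx0 h0

variable {n : ℕ} {C : GCone n} [Algebra (Pol (n + 1)) C.K] [IsScalarTower ℂ (Pol (n + 1)) C.K]
  [FaithfulSMul (Pol (n + 1)) C.K] {V : Cov C} {φ₀ : C.Pt} {N' : ℕ} {S : Sheets (n + 1) N'}
  {q : (Fin (n + 1) → ℂ) × ℂ}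

/-- Transfer of integrals from `M` to a chart. -/
theorem transfer (hS : V.E.IsSheets S) {φ : C.Pt} (c : Chart φ (n + 1))
    {G : (Fin (n + 1) → ℂ) × ℂ → ℝ≥0∞} (hG : AEMeasurable G S.μ)
    {B : Set ((Fin (n + 1) → ℂ) × ℂ)} (hB : ∫⁻ q in B, G q ∂S.μ < ⊤)
    (h : ∀ᶠ x in 𝓝 (0 : Fin (n + 1) → ℂ), c.ψ x V.h' ≠ 0 → V.qq (c.ψ x) ∈ B)
    {b : C.R} (hb : b ≠ 0) {g : (Fin (n + 1) → ℂ) → ℝ≥0∞}
    (hg : ∀ᶠ x in 𝓝 (0 : Fin (n + 1) → ℂ), c.ψ x V.h' ≠ 0 → c.ψ x b ≠ 0 →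
      g x ≤ ENNReal.ofReal (‖V.jc c x‖ ^ 2) * G (V.qq (c.ψ x))) : LInt 0 g := by
  obtain ⟨e, he, hsub⟩ := Metric.mem_nhds_iff.1
    ((h.and hg).and (ball_mem_nhds (0 : Fin (n + 1) → ℂ) c.ρ_pos))
  set ε := min e c.ρ with hε
  have hε0 : 0 < ε := lt_min he c.ρ_pos
  have hsub' : ∀ x ∈ ball (0 : Fin (n + 1) → ℂ) ε, (c.ψ x V.h' ≠ 0 → V.qq (c.ψ x) ∈ B) ∧
      (c.ψ x V.h' ≠ 0 → c.ψ x b ≠ 0 →
        g x ≤ ENNReal.ofReal (‖V.jc c x‖ ^ 2) * G (V.qq (c.ψ x))) := fun x hx =>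
    (hsub (ball_subset_ball (min_le_left _ _) hx)).1
  obtain ⟨-, hM⟩ := H408.chartM' V c hS (fun f hf => chart_null c hf)
  obtain ⟨-, hM⟩ := hM ε hε0 (min_le_right _ _)
  have h1 := hM G hG
  refine ⟨ball 0 ε, ball_mem_nhds _ hε0, ?_⟩
  have hn1 : ∀ᵐ x ∂(volume : Measure (Fin (n + 1) → ℂ)),
      x ∉ {x ∈ ball (0 : Fin (n + 1) → ℂ) c.ρ | c.ψ x V.h' = 0} :=
    measure_eq_zero_iff_ae_notMem.1 (chart_null c (H408.h'_ne V))
  have hn2 : ∀ᵐ x ∂(volume : Measure (Fin (n + 1) → ℂ)),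
      x ∉ {x ∈ ball (0 : Fin (n + 1) → ℂ) c.ρ | c.ψ x b = 0} :=
    measure_eq_zero_iff_ae_notMem.1 (chart_null c hb)
  calc ∫⁻ x in ball 0 ε, g x
      ≤ ∫⁻ x in ball (0 : Fin (n + 1) → ℂ) ε,
          ENNReal.ofReal (‖V.jc c x‖ ^ 2) * G (V.qq (c.ψ x)) := by
        refine lintegral_mono_ae ?_
        filter_upwards [ae_restrict_mem measurableSet_ball, ae_restrict_of_ae hn1,
          ae_restrict_of_ae hn2] with x hx h2 h3
        have hxρ : x ∈ ball (0 : Fin (n + 1) → ℂ) c.ρ := ball_subset_ball (min_le_right _ _) hx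
        exact (hsub' x hx).2 (fun h0 => h2 ⟨hxρ, h0⟩) (fun h0 => h3 ⟨hxρ, h0⟩)
    _ = ∫⁻ q in {q | ∃ x ∈ ball (0 : Fin (n + 1) → ℂ) ε, V.qq (c.ψ x) = q}, G q ∂S.μ := h1.symm
    _ ≤ ∫⁻ q in B, G q ∂S.μ := by
        refine lintegral_mono_set' ?_
        filter_upwards [Sheets.ae_mem_M (S := S)] with q hq
        rintro ⟨x, hx, rfl⟩
        refine (hsub' x hx).1 ?_
        rw [← V.h_qq]
        exact Prim.ev_h_ne_zero hS hq
    _ < ⊤ := hB

/-- Values of fractions. -/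
theorem ev_frac (hS : V.E.IsSheets S) {f : C.K} {a b : C.R} (hf : V.E.IsReg f)
    (hfab : f = algebraMap C.R C.K a / algebraMap C.R C.K b) (hb : b ≠ 0) {χ : C.Pt}
    (h : χ V.h' ≠ 0) (hb' : χ b ≠ 0) : V.E.ev f (V.qq χ) = χ a / χ b := by
  have h0 : algebraMap C.R C.K b ≠ 0 := fun h => hb (Cov.alg_inj (by rw [h, map_zero]))
  have h1 : f * algebraMap C.R C.K b = algebraMap C.R C.K a := by
    rw [hfab, div_mul_cancel₀ _ h0]
  have h2 := Prim.ev_mul hS (V.qq_mem hS h) hf (V.isReg b)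
  rw [h1] at h2
  rw [eq_div_iff hb', ← V.ev_qq hS h a, ← V.ev_qq hS h b]
  exact h2.symm

/-- Values on `M` and on points. -/
theorem eM_qq (hS : V.E.IsSheets S) (T : Tube V φ₀) {χ : C.Pt} (h : χ V.h' ≠ 0) :
    T.eM (V.qq χ) = T.eP χ := by
  rw [T.eM_eq hS (V.qq_mem hS h), V.pt_qq hS h]

theorem vv_qq (hS : V.E.IsSheets S) (T : Tube V φ₀) {χ : C.Pt} (h : χ V.h' ≠ 0) :
    Glob.vv T.ξM T.ξ0 (V.qq χ) = T.vP χ := by
  rw [T.vv_eq hS (V.qq_mem hS h), V.pt_qq hS h]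

theorem good_qq (hS : V.E.IsSheets S) (T : Tube V φ₀) {χ : C.Pt} (h : χ V.h' ≠ 0) :
    T.Good χ := by
  have := T.good_pt hS (V.qq_mem hS h)
  rwa [V.pt_qq hS h] at this

theorem wM_qq (hS : V.E.IsSheets S) (w : RWeight C) {χ : C.Pt} (h : χ V.h' ≠ 0) :
    wM V w (V.qq χ) = w.val χ := by
  rw [wM_eq hS (V.qq_mem hS h), V.pt_qq hS h]

/-- The norm of the coordinates is continuous. -/
theorem tendsto_qq (V : Cov C) {φ : C.Pt} (c : Chart φ (n + 1)) :
    Tendsto (fun x => ‖(V.qq (c.ψ x)).1‖) (𝓝 0) (𝓝 ‖(V.qq φ).1‖) := by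
  refine Tendsto.norm ?_
  rw [tendsto_pi_nhds]
  exact fun i => ((continuous_ev (V.z i)).tendsto φ).comp c.tendsto_ψ

theorem aemeas_sq {F : (Fin (n + 1) → ℂ) × ℂ → ℂ} (hF : S.Holo F) :
    AEMeasurable (fun q => ENNReal.ofReal (‖F q‖ ^ 2)) S.μ :=
  ((Sheets.aestronglyMeasurable_of_CD (hF.CD 0)).aemeasurable.norm.pow_const 2).ennreal_ofReal

/-- The transfer of the output to charts. -/
theorem coreOut (hS : V.E.IsSheets S) (T : Tube V φ₀) (w : RWeight C) {m : ℕ} {l : ℤ}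
    (hl : l = (m : ℤ) - (n + 1) * V.N)
    {F : (Fin (n + 1) → ℂ) × ℂ → ℂ} (hF : MOut T S w l F) {f : C.K} (hf : V.E.IsReg f)
    (hfF : ∀ q ∈ S.M, V.E.ev f q = F q) {a b : C.R} {i j : ℕ} (ha : a ∈ C.A i) (hb : b ∈ C.A j)
    (hb0 : b ≠ 0) (hij : i + (n + 1) * V.N = m + j)
    (hfab : f = algebraMap C.R C.K a / algebraMap C.R C.K b) : CoreOut V T w m a b i j l where
  l_eq := hl
  a_mem := ha
  b_mem := hb
  b_ne := hb0
  deg := hij
  l2 φ hφ c := by
    have hz := V.z_ne hφ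
    set ζ := ‖(V.qq φ).1‖ with hζ
    refine transfer hS c (aemeas_sq hF.holo)
      (F_shell hS T w hF (c := ζ / 2) (R := ζ + 1) (by positivity)) ?_ hb0 ?_
    · have h1 := (tendsto_qq V c).eventually (Ioo_mem_nhds (a := ζ / 2) (b := ζ + 1)
        (by linarith) (by linarith))
      filter_upwards [h1] with x hx _
      exact ⟨hx.1.le, hx.2.le⟩
    · refine Eventually.of_forall fun x hx hxb => ?_
      rw [← hfF _ (V.qq_mem hS hx), ev_frac hS hf hfab hb0 hx hxb, norm_mul, mul_pow,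
        ENNReal.ofReal_mul (by positivity), mul_comm]
  near := by
    obtain ⟨r1, hr1, hnear⟩ := hF.near
    refine ⟨r1, hr1, fun φ hφ hv c => ?_⟩
    have hG : AEMeasurable (fun q => ENNReal.ofReal (‖F q - T.eM q ^ l‖ ^ 2) * wM V w q) S.μ := by
      refine AEMeasurable.mul ?_ (Glob.weight_aemeas (weight V hS w))
      have h1 : S.Holo fun q => F q - T.eM q ^ l := by
        have h2 := hF.holo.add ((Sheets.Holo.const (-1)).mul (T.holo_zpow hS l))
        intro W s hs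
        refine (h2 W s hs).congr fun z hz => ?_
        ring
      exact aemeas_sq h1
    refine transfer hS c hG (hnear (‖(V.qq φ).1‖ + 1)) ?_ hb0 ?_
    · have h1 := (tendsto_qq V c).eventually (Iio_mem_nhds (lt_add_one _))
      have h2 := ((T.tendsto_vP hφ).comp c.tendsto_ψ).eventually (Iio_mem_nhds hv)
      filter_upwards [h1, h2] with x hx1 hx2 hx
      refine ⟨le_of_lt hx1, ?_⟩
      rw [vv_qq hS T hx]
      exact le_of_lt hx2
    · refine Eventually.of_forall fun x hx hxb => ?_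
      rw [← hfF _ (V.qq_mem hS hx), ev_frac hS hf hfab hb0 hx hxb, eM_qq hS T hx, wM_qq hS w hx,
        norm_mul, mul_pow, ENNReal.ofReal_mul (by positivity), ← mul_assoc,
        mul_comm (ENNReal.ofReal (‖V.jc c x‖ ^ 2))]
  off φ hφ ho c := by
    have := T.firstCountable V
    obtain ⟨r2, hr2, hoff⟩ := T.off hφ ho
    have hG : AEMeasurable (fun q => ENNReal.ofReal (‖F q‖ ^ 2) * wM V w q) S.μ :=
      (aemeas_sq hF.holo).mul (Glob.weight_aemeas (weight V hS w))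
    refine transfer hS c hG (hF.off (‖(V.qq φ).1‖ + 1) r2 hr2) ?_ hb0 ?_
    · have h1 := (tendsto_qq V c).eventually (Iio_mem_nhds (lt_add_one _))
      have h2 := c.tendsto_ψ.eventually hoff
      filter_upwards [h1, h2] with x hx1 hx2 hx
      refine ⟨le_of_lt hx1, ?_⟩
      rw [vv_qq hS T hx]
      exact hx2 (good_qq hS T hx)
    · refine Eventually.of_forall fun x hx hxb => ?_
      rw [← hfF _ (V.qq_mem hS hx), ev_frac hS hf hfab hb0 hx hxb, wM_qq hS w hx,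
        norm_mul, mul_pow, ENNReal.ofReal_mul (by positivity), ← mul_assoc,
        mul_comm (ENNReal.ofReal (‖V.jc c x‖ ^ 2))]

theorem RWeight.deg_nonneg (w : RWeight C) : 0 ≤ w.deg :=
  Finset.sum_nonneg fun a _ => mul_nonneg (w.nonneg a) (Nat.cast_nonneg _)

end Vale.Agent.P271.H741

namespace Vale.Agent.P271.H741

open Vale.Agent.P282.L2 Vale.Agent.P271.Sch Vale.Agent.P271.Inst

/-- **The global theorem on the cone.** -/
theorem core : CoreStatement := by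
  intro n C _ _ _ V φ₀ T w m hdeg hloc
  obtain ⟨S, hS⟩ := V.E.exists_sheets
  have hm : (0 : ℤ) < m := by
    have h1 : (0 : ℝ) < m := w.deg_nonneg.trans_lt hdeg
    exact_mod_cast h1
  obtain ⟨F, hF⟩ := exists_globOut hS T w hdeg (l := (m : ℤ) - (n + 1) * V.N) rfl
    (H884.hypH V hS T w hloc _)
  obtain ⟨f, hf, hfF, -⟩ := exists_elt hS T w (by linarith) hF
  obtain ⟨a, b, i, j, ha, hb, hb0, hij, hfab⟩ := Glob.exists_ab V hS hf (m := m) rfl
    (fun t ht q hq => by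
      rw [hfF q hq, hfF _ (V.act_mem hS hq ht)]
      exact hF.hom t ht q hq)
  exact ⟨a, b, i, j, coreOut hS T w rfl hF hf hfF ha hb hb0 hij hfab⟩

end Vale.Agent.P271.H741
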