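import Vale.Agent.P271.H741.Core2
import Vale.Agent.P271.H311.GlobEnd
import Vale.Agent.P271.H879.L2Prop
import Vale.Agent.P271.H989.MkNp

/-!
P271, block GLOB: the final step.
-/

namespace Vale.Agent.P271.H741

open Vale.Agent.P282.L2 Vale.Agent.P271.Sch Vale.Agent.P271.Inst

/-- A weight of degree `< m`, not integrable at `φ₀`, integrable at the points near `φ₀` which are not
on its orbit, gives a generator of `K + mL` at `φ₀`. -/
theorem globEnd : GlobEnd :=
  Br.globEnd_of H879.l2Reg core fun _ C φ h => H989.exists_np C φ h

end Vale.Agent.P271.H741
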