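import Vale.Agent.P271.H741.Tube2

/-!
P271, block GLOB-B: points of the cone outside of the orbit are outside of a thin tube.
-/

set_option linter.unusedSectionVars false

open MeasureTheory Filter Topology Metric
open scoped ENNReal NNReal ComplexConjugate Vale.Agent.P271.Inst

namespace Vale.Agent.P271.H741

open Vale.Agent.P282.L2 Vale.Agent.P271.Sch Vale.Agent.P271.Inst

variable {n : ℕ} {C : GCone n} [Algebra (Pol (n + 1)) C.K] [IsScalarTower ℂ (Pol (n + 1)) C.K]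
  [FaithfulSMul (Pol (n + 1)) C.K]

/-- The coordinates bound all functions on the cone. -/
theorem Cov.pt_growth (V : Cov C) (a : C.R) : ∃ (c : ℝ) (k : ℕ), 0 ≤ c ∧ ∀ χ : C.Pt,
    ‖χ a‖ ≤ c * (1 + ‖(V.qq χ).1‖) ^ k := by
  obtain ⟨p, hp1, hp2⟩ := V.int a
  obtain ⟨c, k, hc, hck⟩ := Prim.evHol_growth2 p
  refine ⟨c + 1, k, by linarith, fun χ => ?_⟩
  set P : Polynomial ℂ := p.map (MvPolynomial.eval (V.qq χ).1) with hP
  have hPmon : P.Monic := hp1.map _
  have hR : Polynomial.eval₂ ((MvPolynomial.aeval V.z : Pol (n + 1) →ₐ[ℂ] C.R).toRingHom) a p = 0 := by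
    apply Cov.alg_inj
    rw [Polynomial.hom_eval₂, map_zero, ← hp2]
    congr 1
    exact RingHom.ext fun f => (V.exists_alg f).symm
  have hroot : P.IsRoot (χ a) := by
    show P.eval _ = 0
    rw [hP, Polynomial.eval_map]
    have h1 := congrArg (fun b => (χ : C.R →+* ℂ) b) hR
    rw [Polynomial.hom_eval₂, map_zero] at h1
    rw [← h1]
    congr 1
    exact RingHom.ext fun f => V.eval_eq χ f
  have h5 := hroot.norm_lt_cauchyBound hPmon.ne_zero
  have h6 : (Polynomial.cauchyBound P : ℝ) ≤ c * (1 + ‖(V.qq χ).1‖) ^ k + 1 := by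
    have h7 : Polynomial.cauchyBound P ≤ ⟨c * (1 + ‖(V.qq χ).1‖) ^ k, by positivity⟩ + 1 := by
      unfold Polynomial.cauchyBound
      rw [hPmon.leadingCoeff, nnnorm_one, div_one]
      refine add_le_add (Finset.sup_le fun i _ => ?_) le_rfl
      rw [hP, Polynomial.coeff_map]
      exact hck (V.qq χ).1 i
    exact_mod_cast h7
  have h8 : ‖χ a‖ < (Polynomial.cauchyBound P : ℝ) := h5
  have h9 : (1 : ℝ) ≤ (1 + ‖(V.qq χ).1‖) ^ k := one_le_pow₀ (by linarith [norm_nonneg (V.qq χ).1])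
  rw [add_mul, one_mul]
  linarith

/-- The coordinates do not vanish simultaneously outside of the vertex. -/
theorem Cov.z_ne (V : Cov C) {φ : C.Pt} (hφ : GCone.NV φ) : 0 < ‖(V.qq φ).1‖ := by
  obtain ⟨k, hk, s, hs, hne⟩ := hφ
  by_contra hcon
  have h0 : ‖(V.qq φ).1‖ = 0 := le_antisymm (not_lt.1 hcon) (norm_nonneg _)
  obtain ⟨c, m, hc, h⟩ := V.pt_growth s
  have hpos : 0 < ‖φ s‖ := norm_pos_iff.2 hne
  set T : ℝ := c / ‖φ s‖ + 1 with hT
  have hT1 : 1 ≤ T := by rw [hT]; have := div_nonneg hc hpos.le; linarith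
  have h1 := h (GCone.tact (T : ℂ) φ)
  rw [V.qq_tact, Glob.norm_act_fst, h0, mul_zero, add_zero, one_pow, mul_one, GCone.tact,
    pact_mem C.A _ _ hs, norm_mul, norm_pow, Complex.norm_real,
    Real.norm_of_nonneg (by linarith)] at h1
  have h2 : T * ‖φ s‖ ≤ T ^ k * ‖φ s‖ := by
    have : T ^ 1 ≤ T ^ k := pow_le_pow_right₀ hT1 hk
    rw [pow_one] at this
    gcongr
  have h3 : T * ‖φ s‖ = c + ‖φ s‖ := by
    rw [hT, add_mul, div_mul_cancel₀ _ hpos.ne', one_mul]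
  linarith

namespace Tube

variable {V : Cov C} {φ₀ : C.Pt} (T : Tube V φ₀)

/-- Continuity of the invariant functions at the good points. -/
theorem tendsto_eP {φ : C.Pt} (h : T.Good φ) : Tendsto T.eP (𝓝 φ) (𝓝 (T.eP φ)) :=
  ((continuous_ev _).tendsto φ).div ((continuous_ev _).tendsto φ) h.1

theorem tendsto_ξP {φ : C.Pt} (h : T.Good φ) (j : Fin T.r) :
    Tendsto (T.ξP j) (𝓝 φ) (𝓝 (T.ξP j φ)) :=
  ((continuous_ev _).tendsto φ).mul (((T.tendsto_eP h).inv₀ h.e_ne).pow _)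

theorem tendsto_vP {φ : C.Pt} (h : T.Good φ) : Tendsto T.vP (𝓝 φ) (𝓝 (T.vP φ)) :=
  tendsto_finsetSum _ fun j _ => (((T.tendsto_ξP h j).sub tendsto_const_nhds).norm.pow 2)

theorem eventually_good {φ : C.Pt} (h : T.Good φ) : ∀ᶠ χ in 𝓝 φ, T.Good χ :=
  (eventually_ne h.1).and (eventually_ne h.2)

/-- If a sequence of good points in thinner and thinner tubes converges to a point which is not the
vertex, the limit is on the orbit. -/
theorem orbit_of_tendsto {φ : C.Pt} (hφ : GCone.NV φ) {u : ℕ → C.Pt} (hu : Tendsto u atTop (𝓝 φ))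
    (hg : ∀ m, T.Good (u m)) (hv : Tendsto (fun m => T.vP (u m)) atTop (𝓝 0)) :
    ∃ t : ℂ, t ≠ 0 ∧ GCone.tact t φ₀ = φ := by
  -- the normalised points converge to `φ₀`
  set τ : ℕ → ℂ := fun m => T.eP (u m) / T.eP φ₀ with hτ
  have he0 := T.good₀.e_ne
  have hτ0 : ∀ m, τ m ≠ 0 := fun m => div_ne_zero (hg m).e_ne he0
  have hx : ∀ m j, u m (T.x j) = τ m ^ T.w j * (T.eP φ₀ ^ T.w j * T.ξP j (u m)) := by
    intro m j
    rw [(hg m).x_eq j, hτ]
    simp only [div_pow]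
    field_simp
  have hξ : ∀ j, Tendsto (fun m => T.ξP j (u m)) atTop (𝓝 (T.ξP j φ₀)) := by
    intro j
    rw [tendsto_iff_norm_sub_tendsto_zero]
    refine squeeze_zero (fun _ => norm_nonneg _) (fun m => T.vP_le (le_refl (T.vP (u m))) j) ?_
    have := (Real.continuous_sqrt.tendsto 0).comp hv
    rwa [Real.sqrt_zero] at this
  have hy : ∀ j, Tendsto (fun m => T.eP φ₀ ^ T.w j * T.ξP j (u m)) atTop (𝓝 (φ₀ (T.x j))) := by
    intro j
    have := (hξ j).const_mul (T.eP φ₀ ^ T.w j)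
    rwa [← T.good₀.x_eq j] at this
  have hux : ∀ j, Tendsto (fun m => u m (T.x j)) atTop (𝓝 (φ (T.x j))) := fun j =>
    tendsto_iff.1 hu _
  -- `τ` is bounded above
  have hw1 : 0 < T.w T.i1 := by rw [T.hw]; exact Nat.succ_pos _
  have hpow1 : Tendsto (fun m => τ m ^ T.w T.i1) atTop (𝓝 (φ (T.x T.i1) / φ₀ (T.x T.i1))) := by
    refine ((hux T.i1).div (hy T.i1) T.ne1).congr' ?_
    filter_upwards with m
    simp only [Pi.div_apply]
    rw [hx m T.i1]
    have : T.eP φ₀ ^ T.w T.i1 * T.ξP T.i1 (u m) ≠ 0 :=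
      mul_ne_zero (pow_ne_zero _ he0) (hg m).ξ1_ne
    exact mul_div_cancel_right₀ _ this
  have hbdd : ∃ B : ℝ, ∀ m, ‖τ m‖ ≤ B := by
    obtain ⟨B, hB⟩ := hpow1.norm.bddAbove_range
    refine ⟨max B 1, fun m => ?_⟩
    by_contra hcon
    rw [not_le] at hcon
    have h1 : 1 ≤ ‖τ m‖ := ((le_max_right _ _).trans_lt hcon).le
    have h2 : ‖τ m‖ ≤ ‖τ m‖ ^ T.w T.i1 := by
      conv_lhs => rw [← pow_one ‖τ m‖]
      exact pow_le_pow_right₀ h1 hw1
    have h3 : ‖τ m ^ T.w T.i1‖ ≤ B := hB ⟨m, rfl⟩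
    rw [norm_pow] at h3
    have := (le_max_left B 1).trans_lt hcon
    linarith
  obtain ⟨B, hB⟩ := hbdd
  -- a convergent subsequence
  obtain ⟨τ₀, -, σ, hσ, hτσ⟩ := (isCompact_closedBall (0 : ℂ) B).tendsto_subseq
    (x := τ) (fun m => by rw [mem_closedBall, dist_zero_right]; exact hB m)
  have hσ' : Tendsto σ atTop atTop := hσ.tendsto_atTop
  have hlim : ∀ j, φ (T.x j) = τ₀ ^ T.w j * φ₀ (T.x j) := by
    intro j
    have h1 := (hux j).comp hσ'
    have h2 := (hτσ.pow (T.w j)).mul ((hy j).comp hσ')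
    refine tendsto_nhds_unique h1 (h2.congr ?_)
    intro m
    simp only [Function.comp_apply]
    rw [hx (σ m) j]
  have heq : φ = GCone.tact τ₀ φ₀ := by
    have h1 : ∀ a ∈ Algebra.adjoin ℂ (Set.range T.x), φ a = GCone.tact τ₀ φ₀ a := by
      intro a ha
      induction ha using Algebra.adjoin_induction with
      | mem a ha =>
        obtain ⟨j, rfl⟩ := ha
        rw [hlim j, GCone.tact, pact_mem C.A _ _ (T.x_mem j)]
      | algebraMap c => rw [AlgHom.commutes, AlgHom.commutes]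
      | add a b _ _ ha hb => rw [map_add, map_add, ha, hb]
      | mul a b _ _ ha hb => rw [map_mul, map_mul, ha, hb]
    exact AlgHom.ext fun a => h1 a (by rw [T.gen]; trivial)
  refine ⟨τ₀, ?_, heq.symm⟩
  rintro rfl
  obtain ⟨k, hk, s, hs, hne⟩ := hφ
  apply hne
  rw [heq, GCone.tact, pact_mem C.A _ _ hs, zero_pow hk.ne', zero_mul]

/-- Points outside of the orbit (and different from the vertex) are outside of a thin tube. -/
theorem off [FirstCountableTopology C.Pt] {φ : C.Pt} (hφ : GCone.NV φ)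
    (ho : ∀ t : ℂ, t ≠ 0 → GCone.tact t φ₀ ≠ φ) :
    ∃ r2 > (0 : ℝ), ∀ᶠ χ in 𝓝 φ, T.Good χ → r2 ≤ T.vP χ := by
  by_contra hcon
  push Not at hcon
  have h1 : ∀ m : ℕ, ∃ᶠ χ in 𝓝 φ, T.Good χ ∧ T.vP χ < 1 / ((m : ℝ) + 1) := by
    intro m
    have := hcon (1 / ((m : ℝ) + 1)) (by positivity)
    simpa [Filter.not_eventually] using this
  obtain ⟨b, hb⟩ := (𝓝 φ).exists_antitone_basis
  have h2 : ∀ m : ℕ, ∃ χ ∈ b m, T.Good χ ∧ T.vP χ < 1 / ((m : ℝ) + 1) := fun m =>
    ((h1 m).and_eventually (hb.mem m)).exists.imp fun χ h => ⟨h.2, h.1⟩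
  choose u hu1 hu2 hu3 using h2
  obtain ⟨t, ht, h⟩ := T.orbit_of_tendsto hφ (hb.tendsto hu1) hu2 (by
    refine squeeze_zero (fun m => Finset.sum_nonneg fun _ _ => by positivity)
      (fun m => (hu3 m).le) tendsto_one_div_add_atTop_nhds_zero_nat)
  exact ho t ht h

/-- The topology is first countable. -/
theorem firstCountable (V : Cov C) {φ₀ : C.Pt} (T : Tube V φ₀) : FirstCountableTopology C.Pt := by
  constructor
  intro φ
  have h : 𝓝 φ = comap (fun χ : C.Pt => fun j => χ (T.x j)) (𝓝 fun j => φ (T.x j)) := by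
    apply le_antisymm
    · rw [← tendsto_iff_comap, tendsto_pi_nhds]
      exact fun j => (continuous_ev _).tendsto φ
    · intro A hA
      obtain ⟨F, δ, hδ, hF⟩ := mem_nhds_iff_finset.1 hA
      obtain ⟨δ', hδ', h1⟩ := near_of_gen_finset T.gen φ F hδ
      refine ⟨ball (fun j => φ (T.x j)) δ', ball_mem_nhds _ hδ', fun χ hχ => hF _ (h1 _ fun j => ?_)⟩
      have h2 : dist (fun j => χ (T.x j)) (fun j => φ (T.x j)) < δ' := hχ
      rw [← dist_eq_norm]
      exact (dist_le_pi_dist (fun j => χ (T.x j)) (fun j => φ (T.x j)) j).trans_lt h2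
  rw [h]
  infer_instance

end Tube

end Vale.Agent.P271.H741
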