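import Vale.Agent.P271.Sch.Hub

/-!
P271: the action of `ℂˣ` on a graded algebra, on its fraction field and on its points.
-/

namespace Vale.Agent.P271.H741

open Vale.Agent.P271.Sch

section gr

variable {R : Type} [CommRing R] [Algebra ℂ R] (A : ℕ → Submodule ℂ R) [GradedAlgebra A]

theorem sc_hone (t : ℂ) : ((t ^ 0) • (A 0).subtype) (@GradedMonoid.GOne.one _ (fun k => A k) _ _) = 1 := by
  show (t ^ 0) • ((1 : R)) = 1
  rw [pow_zero, one_smul]

theorem sc_hmul (t : ℂ) {i j : ℕ} (x : A i) (y : A j) :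
    ((t ^ (i + j)) • (A (i + j)).subtype) (@GradedMonoid.GMul.mul _ (fun k => A k) _ _ _ _ x y) =
      ((t ^ i) • (A i).subtype) x * ((t ^ j) • (A j).subtype) y := by
  show (t ^ (i + j)) • ((x : R) * (y : R)) = ((t ^ i) • (x : R)) * ((t ^ j) • (y : R))
  rw [smul_mul_smul_comm, pow_add]

/-- The grading automorphism: multiplication by `t^k` on `A k`. -/
noncomputable def sc (t : ℂ) : R →ₐ[ℂ] R :=
  (DirectSum.toAlgebra ℂ (fun k => A k) (fun k => (t ^ k) • (A k).subtype)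
    (sc_hone A t) (fun {_ _} x y => sc_hmul A t x y)).comp
    (DirectSum.decomposeAlgEquiv A : R ≃ₐ[ℂ] _).toAlgHom

theorem sc_mem (t : ℂ) {k : ℕ} {a : R} (ha : a ∈ A k) : sc A t a = (t ^ k) • a := by
  show (DirectSum.toAlgebra ℂ (fun k => A k) (fun k => (t ^ k) • (A k).subtype)
    (sc_hone A t) (fun {_ _} x y => sc_hmul A t x y)) (DirectSum.decompose A a) = _
  rw [DirectSum.decompose_of_mem A ha]
  exact DirectSum.toAddMonoid_of (fun k => ((t ^ k) • (A k).subtype).toAddMonoidHom) k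
    (⟨a, ha⟩ : A k)

variable {A}

theorem algHom_ext_gr {B : Type*} [Semiring B] [Algebra ℂ B] {f g : R →ₐ[ℂ] B}
    (h : ∀ k, ∀ a ∈ A k, f a = g a) : f = g := by
  refine AlgHom.ext fun a => ?_
  classical
  rw [← DirectSum.sum_support_decompose A a, map_sum, map_sum]
  exact Finset.sum_congr rfl fun k _ => h k _ (SetLike.coe_mem _)

variable (A)

theorem sc_mul (s t : ℂ) : sc A (s * t) = (sc A s).comp (sc A t) := by
  refine algHom_ext_gr (A := A) fun k a ha => ?_
  rw [AlgHom.comp_apply, sc_mem A _ ha, sc_mem A _ ha, map_smul, sc_mem A _ ha, smul_smul,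
    mul_pow, mul_comm]

theorem sc_one : sc A 1 = AlgHom.id ℂ R := by
  refine algHom_ext_gr (A := A) fun k a ha => ?_
  rw [sc_mem A _ ha, one_pow, one_smul]
  rfl

theorem sc_inj {t : ℂ} (ht : t ≠ 0) : Function.Injective (sc A t) := by
  have h : (sc A t⁻¹).comp (sc A t) = AlgHom.id ℂ R := by
    rw [← sc_mul, inv_mul_cancel₀ ht, sc_one]
  intro a b hab
  have := congrArg (sc A t⁻¹) hab
  rw [← AlgHom.comp_apply, ← AlgHom.comp_apply, h] at this
  exact this

/-- The action on points. -/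
noncomputable def pact (t : ℂ) (φ : R →ₐ[ℂ] ℂ) : R →ₐ[ℂ] ℂ := φ.comp (sc A t)

theorem pact_mem (t : ℂ) (φ : R →ₐ[ℂ] ℂ) {k : ℕ} {a : R} (ha : a ∈ A k) :
    pact A t φ a = t ^ k * φ a := by
  rw [pact, AlgHom.comp_apply, sc_mem A t ha, map_smul, smul_eq_mul]

theorem pact_mul (s t : ℂ) (φ : R →ₐ[ℂ] ℂ) : pact A (s * t) φ = pact A s (pact A t φ) := by
  refine algHom_ext_gr (A := A) fun k a ha => ?_
  rw [pact_mem A _ _ ha, pact_mem A _ _ ha, pact_mem A _ _ ha, mul_pow, mul_assoc]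

theorem pact_one (φ : R →ₐ[ℂ] ℂ) : pact A 1 φ = φ := by
  refine algHom_ext_gr (A := A) fun k a ha => ?_
  rw [pact_mem A _ _ ha, one_pow, one_mul]

theorem pact_inv {t : ℂ} (ht : t ≠ 0) (φ : R →ₐ[ℂ] ℂ) : pact A t⁻¹ (pact A t φ) = φ := by
  rw [← pact_mul, inv_mul_cancel₀ ht, pact_one]

theorem pact_inv' {t : ℂ} (ht : t ≠ 0) (φ : R →ₐ[ℂ] ℂ) : pact A t (pact A t⁻¹ φ) = φ := by
  rw [← pact_mul, mul_inv_cancel₀ ht, pact_one]

variable [IsDomain R] {K : Type} [Field K] [Algebra R K] [IsFractionRing R K] [Algebra ℂ K]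
  [IsScalarTower ℂ R K]

/-- The action on the fraction field. -/
noncomputable def scK (t : ℂˣ) : K →ₐ[ℂ] K :=
  { IsFractionRing.map (K := K) (L := K) (j := (sc A (t : ℂ)).toRingHom)
      (sc_inj A t.ne_zero) with
    commutes' := fun c => by
      show IsFractionRing.map (K := K) (L := K) (j := (sc A (t : ℂ)).toRingHom)
        (sc_inj A t.ne_zero) (algebraMap ℂ K c) = algebraMap ℂ K c
      rw [IsScalarTower.algebraMap_apply ℂ R K, IsFractionRing.map, IsLocalization.map_eq]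
      congr 1
      exact (sc A (t : ℂ)).commutes c }

theorem scK_alg (t : ℂˣ) (a : R) :
    scK A (K := K) t (algebraMap R K a) = algebraMap R K (sc A (t : ℂ) a) := by
  show IsFractionRing.map (K := K) (L := K) (j := (sc A (t : ℂ)).toRingHom)
        (sc_inj A t.ne_zero) (algebraMap R K a) = _
  rw [IsFractionRing.map, IsLocalization.map_eq]
  rfl

theorem scK_mem (t : ℂˣ) {k : ℕ} {a : R} (ha : a ∈ A k) :
    scK A (K := K) t (algebraMap R K a) = algebraMap ℂ K ((t : ℂ) ^ k) * algebraMap R K a := by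
  rw [scK_alg, sc_mem A _ ha, Algebra.smul_def, map_mul,
    ← IsScalarTower.algebraMap_apply ℂ R K]

end gr

end Vale.Agent.P271.H741
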