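import Vale.Agent.P271.H741.Cov
import Vale.Agent.P282.Bd3.B4

/-!
P271, block GLOB-B: tubes around the orbit of a point of the cone.
-/

set_option linter.unusedSectionVars false
set_option linter.style.haveILetI false
set_option linter.unusedVariables false

open MeasureTheory Filter Topology Metric
open scoped ENNReal NNReal ComplexConjugate

namespace Vale.Agent.P271.H741

open Vale.Agent.P282.L2 Vale.Agent.P271.Sch

section partials

variable {n : ℕ} {K : Type} [Field K] [Algebra ℂ K] [Algebra (Pol n) K]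
  [IsScalarTower ℂ (Pol n) K] [FaithfulSMul (Pol n) K]

/-- The partial derivatives. -/
theorem exists_partials_of_prim (E : Prim n K) : ∃ d : Fin n → Derivation ℂ K K, IsPartials d := by
  letI : Algebra (FractionRing (Pol n)) K := FractionRing.liftAlgebra (Pol n) K
  haveI : IsScalarTower (Pol n) (FractionRing (Pol n)) K :=
    FractionRing.isScalarTower_liftAlgebra (Pol n) K
  have hy : IsIntegral (FractionRing (Pol n)) E.y := E.integral.tower_top
  have htop : (⊤ : Subalgebra (FractionRing (Pol n)) K) = Algebra.adjoin _ {E.y} := by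
    refine (eq_top_iff.2 fun a _ => ?_).symm
    obtain ⟨f, c, hc, h⟩ := E.gen a
    have hc' : algebraMap (Pol n) K c ≠ 0 := fun h0 =>
      hc (FaithfulSMul.algebraMap_injective (Pol n) K (by rw [h0, map_zero]))
    have ha : a = (algebraMap (Pol n) (FractionRing (Pol n)) c)⁻¹ •
        Polynomial.aeval E.y (f.map (algebraMap (Pol n) (FractionRing (Pol n)))) := by
      rw [Polynomial.aeval_map_algebraMap, ← h, Algebra.smul_def, map_inv₀,
        ← IsScalarTower.algebraMap_apply]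
      field_simp
    rw [ha]
    exact Subalgebra.smul_mem _ (Polynomial.aeval_mem_adjoin_singleton _ _) _
  haveI : FiniteDimensional (FractionRing (Pol n)) K := by
    have h1 : Module.Finite (FractionRing (Pol n)) (Algebra.adjoin (FractionRing (Pol n)) {E.y}) :=
      Algebra.finite_adjoin_simple_of_isIntegral hy
    rw [← htop] at h1
    exact Module.Finite.equiv (Subalgebra.topEquiv (R := FractionRing (Pol n)) (A := K)).toLinearEquiv
  exact Vale.Agent.P282.Full.exists_partials n K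

end partials

variable {n : ℕ} {C : GCone n}

/-- Bounds on the generators bound every element. -/
theorem bdd_of_gen {r : ℕ} {x : Fin r → C.R} (gen : Algebra.adjoin ℂ (Set.range x) = ⊤) (a : C.R)
    (B : ℝ) : ∃ b : ℝ, ∀ χ : C.Pt, (∀ j, ‖χ (x j)‖ ≤ B) → ‖χ a‖ ≤ b := by
  have ha : a ∈ Algebra.adjoin ℂ (Set.range x) := by rw [gen]; trivial
  induction ha using Algebra.adjoin_induction with
  | mem a ha =>
    obtain ⟨j, rfl⟩ := ha
    exact ⟨B, fun χ h => h j⟩
  | algebraMap c => exact ⟨‖c‖, fun χ _ => by rw [AlgHom.commutes]; exact le_rfl⟩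
  | add a b _ _ iha ihb =>
    obtain ⟨b1, h1⟩ := iha
    obtain ⟨b2, h2⟩ := ihb
    exact ⟨b1 + b2, fun χ h => by
      rw [map_add]; exact (norm_add_le _ _).trans (add_le_add (h1 χ h) (h2 χ h))⟩
  | mul a b _ _ iha ihb =>
    obtain ⟨b1, h1⟩ := iha
    obtain ⟨b2, h2⟩ := ihb
    refine ⟨b1 * b2, fun χ h => ?_⟩
    rw [map_mul, norm_mul]
    exact mul_le_mul (h1 χ h) (h2 χ h) (norm_nonneg _) ((norm_nonneg _).trans (h1 χ h))

/-- The topology of the points is defined by the generators. -/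
theorem near_of_gen {r : ℕ} {x : Fin r → C.R} (gen : Algebra.adjoin ℂ (Set.range x) = ⊤)
    (φ : C.Pt) (a : C.R) {ε : ℝ} (hε : 0 < ε) : ∃ δ > (0 : ℝ), ∀ χ : C.Pt,
      (∀ j, ‖χ (x j) - φ (x j)‖ < δ) → ‖χ a - φ a‖ < ε := by
  have ha : a ∈ Algebra.adjoin ℂ (Set.range x) := by rw [gen]; trivial
  induction ha using Algebra.adjoin_induction generalizing ε with
  | mem a ha =>
    obtain ⟨j, rfl⟩ := ha
    exact ⟨ε, hε, fun χ h => h j⟩
  | algebraMap c =>
    exact ⟨1, one_pos, fun χ _ => by rw [AlgHom.commutes, AlgHom.commutes, sub_self, norm_zero]; exact hε⟩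
  | add a b _ _ iha ihb =>
    obtain ⟨d1, hd1, h1⟩ := iha (half_pos hε)
    obtain ⟨d2, hd2, h2⟩ := ihb (half_pos hε)
    refine ⟨min d1 d2, lt_min hd1 hd2, fun χ h => ?_⟩
    have e1 := h1 χ fun j => (h j).trans_le (min_le_left _ _)
    have e2 := h2 χ fun j => (h j).trans_le (min_le_right _ _)
    have : χ (a + b) - φ (a + b) = (χ a - φ a) + (χ b - φ b) := by
      rw [map_add, map_add]; ring
    rw [this]
    exact (norm_add_le _ _).trans_lt (by linarith)
  | mul a b _ _ iha ihb =>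
    set B := ‖φ a‖ + ‖φ b‖ + 1 with hB
    have hBpos : 0 < B := by positivity
    obtain ⟨d1, hd1, h1⟩ := iha (ε := min 1 (ε / (2 * B))) (by positivity)
    obtain ⟨d2, hd2, h2⟩ := ihb (ε := min 1 (ε / (2 * B))) (by positivity)
    refine ⟨min d1 d2, lt_min hd1 hd2, fun χ h => ?_⟩
    have e1 := h1 χ fun j => (h j).trans_le (min_le_left _ _)
    have e2 := h2 χ fun j => (h j).trans_le (min_le_right _ _)
    have : χ (a * b) - φ (a * b) = (χ a - φ a) * χ b + φ a * (χ b - φ b) := by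
      rw [map_mul, map_mul]; ring
    rw [this]
    have hb : ‖χ b‖ ≤ B := by
      have : χ b = (χ b - φ b) + φ b := by ring
      rw [this]
      refine (norm_add_le _ _).trans ?_
      have := e2.le.trans (min_le_left _ _)
      rw [hB]
      linarith [norm_nonneg (φ a)]
    have ha' : ‖φ a‖ ≤ B := by rw [hB]; linarith [norm_nonneg (φ b)]
    have e3 : ‖χ a - φ a‖ < ε / (2 * B) := e1.trans_le (min_le_right _ _)
    have e4 : ‖χ b - φ b‖ < ε / (2 * B) := e2.trans_le (min_le_right _ _)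
    refine (norm_add_le _ _).trans_lt ?_
    rw [norm_mul, norm_mul]
    have f1 : ‖χ a - φ a‖ * ‖χ b‖ ≤ ‖χ a - φ a‖ * B := by gcongr
    have f2 : ‖φ a‖ * ‖χ b - φ b‖ ≤ B * ‖χ b - φ b‖ := by gcongr
    have f3 : ‖χ a - φ a‖ * B < ε / 2 := by
      have := mul_lt_mul_of_pos_right e3 hBpos
      calc _ < _ := this
        _ = ε / 2 := by field_simp
    have f4 : B * ‖χ b - φ b‖ < ε / 2 := by
      have := mul_lt_mul_of_pos_left e4 hBpos
      calc _ < _ := this
        _ = ε / 2 := by field_simp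
    linarith

/-- Finitely many elements at once. -/
theorem near_of_gen_finset {r : ℕ} {x : Fin r → C.R} (gen : Algebra.adjoin ℂ (Set.range x) = ⊤)
    (φ : C.Pt) (F : Finset C.R) {ε : ℝ} (hε : 0 < ε) : ∃ δ > (0 : ℝ), ∀ χ : C.Pt,
      (∀ j, ‖χ (x j) - φ (x j)‖ < δ) → ∀ a ∈ F, ‖χ a - φ a‖ < ε := by
  classical
  induction F using Finset.induction_on with
  | empty => exact ⟨1, one_pos, fun χ _ a ha => absurd ha (Finset.notMem_empty a)⟩
  | insert b F hb ih =>
    obtain ⟨d1, hd1, h1⟩ := ih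
    obtain ⟨d2, hd2, h2⟩ := near_of_gen gen φ b hε
    refine ⟨min d1 d2, lt_min hd1 hd2, fun χ h a ha => ?_⟩
    rcases Finset.mem_insert.1 ha with rfl | ha
    · exact h2 χ fun j => (h j).trans_le (min_le_right _ _)
    · exact h1 χ (fun j => (h j).trans_le (min_le_left _ _)) a ha

variable [Algebra (Pol (n + 1)) C.K] [IsScalarTower ℂ (Pol (n + 1)) C.K]
  [FaithfulSMul (Pol (n + 1)) C.K]

/-- Homogeneous generators `x_j`, two of which, of consecutive degrees, do not vanish at `φ₀` and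
divide a power of `h`. -/
structure Tube (V : Cov C) (φ₀ : C.Pt) where
  /-- number of generators -/
  r : ℕ
  /-- the generators -/
  x : Fin r → C.R
  /-- their degrees -/
  w : Fin r → ℕ
  x_mem : ∀ j, x j ∈ C.A (w j)
  gen : Algebra.adjoin ℂ (Set.range x) = ⊤
  /-- index of the first special generator -/
  i0 : Fin r
  /-- index of the second special generator -/
  i1 : Fin r
  hw : w i1 = w i0 + 1
  ne0 : φ₀ (x i0) ≠ 0
  ne1 : φ₀ (x i1) ≠ 0
  reg0 : V.E.IsReg (algebraMap C.R C.K (x i0))⁻¹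
  reg1 : V.E.IsReg (algebraMap C.R C.K (x i1))⁻¹

namespace Tube

variable {V : Cov C} {φ₀ : C.Pt} (T : Tube V φ₀) {N' : ℕ} {S : Sheets (n + 1) N'}
  {q : (Fin (n + 1) → ℂ) × ℂ}

/-- The function of degree one, on points. -/
noncomputable def eP (χ : C.Pt) : ℂ := χ (T.x T.i1) / χ (T.x T.i0)

/-- The invariant functions, on points. -/
noncomputable def ξP (j : Fin T.r) (χ : C.Pt) : ℂ := χ (T.x j) * ((T.eP χ)⁻¹) ^ T.w j

/-- The element of degree one. -/
noncomputable def eK : C.K :=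
  algebraMap C.R C.K (T.x T.i1) * (algebraMap C.R C.K (T.x T.i0))⁻¹

/-- The invariant elements. -/
noncomputable def ξK (j : Fin T.r) : C.K :=
  algebraMap C.R C.K (T.x j) * (algebraMap C.R C.K (T.x T.i0) *
    (algebraMap C.R C.K (T.x T.i1))⁻¹) ^ T.w j

theorem x0_ne : T.x T.i0 ≠ 0 := fun h => T.ne0 (by rw [h, map_zero])

theorem x1_ne : T.x T.i1 ≠ 0 := fun h => T.ne1 (by rw [h, map_zero])

theorem eK_ne : T.eK ≠ 0 := by
  refine mul_ne_zero ?_ (inv_ne_zero ?_)
  · exact fun h => T.x1_ne (Cov.alg_inj (by rw [h, map_zero]))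
  · exact fun h => T.x0_ne (Cov.alg_inj (by rw [h, map_zero]))

theorem isReg_eK : V.E.IsReg T.eK := (V.isReg _).mul T.reg0

theorem isReg_eK_inv : V.E.IsReg T.eK⁻¹ := by
  rw [eK, mul_inv, inv_inv]
  exact T.reg1.mul (V.isReg _)

theorem isReg_ξK (j : Fin T.r) : V.E.IsReg (T.ξK j) :=
  (V.isReg _).mul (((V.isReg _).mul T.reg1).pow _)

theorem hom_eK : V.G.Hom T.eK 1 := by
  have := (V.hom_alg (T.x_mem T.i1)).mul (V.hom_alg (T.x_mem T.i0)).inv
  rwa [T.hw, show (((T.w T.i0 + 1 : ℕ) : ℤ) + -((T.w T.i0 : ℕ) : ℤ)) = 1 by push_cast; ring] at this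

theorem hom_ξK (j : Fin T.r) : V.G.Hom (T.ξK j) 0 := by
  have h1 := ((V.hom_alg (T.x_mem T.i0)).mul (V.hom_alg (T.x_mem T.i1)).inv).pow (T.w j)
  have h2 := (V.hom_alg (T.x_mem j)).mul h1
  rwa [T.hw, show ((T.w j : ℤ) + (T.w j : ℤ) * ((T.w T.i0 : ℕ) + -((T.w T.i0 + 1 : ℕ) : ℤ))) = 0 by
    push_cast; ring] at h2

theorem f0_ne (hS : V.E.IsSheets S) (hq : q ∈ S.M) : V.f (T.x T.i0) q ≠ 0 :=
  Prim.ev_ne_zero_of_inv hS hq (fun h => T.x0_ne (Cov.alg_inj (by rw [h, map_zero]))) (V.isReg _)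
    T.reg0

theorem f1_ne (hS : V.E.IsSheets S) (hq : q ∈ S.M) : V.f (T.x T.i1) q ≠ 0 :=
  Prim.ev_ne_zero_of_inv hS hq (fun h => T.x1_ne (Cov.alg_inj (by rw [h, map_zero]))) (V.isReg _)
    T.reg1

/-- The function of degree one on `M`. -/
noncomputable def eM (q : (Fin (n + 1) → ℂ) × ℂ) : ℂ := V.E.ev T.eK q

/-- The invariant functions on `M`. -/
noncomputable def ξM (j : Fin T.r) (q : (Fin (n + 1) → ℂ) × ℂ) : ℂ := V.E.ev (T.ξK j) q

theorem eM_eq (hS : V.E.IsSheets S) (hq : q ∈ S.M) : T.eM q = T.eP (V.pt hS hq) := by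
  rw [eM, eK, Prim.ev_mul hS hq (V.isReg _) T.reg0, Prim.ev_inv hS hq (V.isReg _) T.reg0, eP,
    div_eq_mul_inv]
  rfl

theorem ξM_eq (hS : V.E.IsSheets S) (hq : q ∈ S.M) (j : Fin T.r) :
    T.ξM j q = T.ξP j (V.pt hS hq) := by
  rw [ξM, ξK, Prim.ev_mul hS hq (V.isReg _) (((V.isReg _).mul T.reg1).pow _),
    Prim.ev_pow hS hq ((V.isReg _).mul T.reg1), Prim.ev_mul hS hq (V.isReg _) T.reg1,
    Prim.ev_inv hS hq (V.isReg _) T.reg1, ξP, eP, inv_div, div_eq_mul_inv]
  rfl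

theorem eM_ne (hS : V.E.IsSheets S) (hq : q ∈ S.M) : T.eM q ≠ 0 :=
  Prim.ev_ne_zero_of_inv hS hq T.eK_ne T.isReg_eK T.isReg_eK_inv

theorem eM_act (hS : V.E.IsSheets S) (hq : q ∈ S.M) {t : ℂ} (ht : t ≠ 0) :
    T.eM (Glob.act V.N V.e t q) = t * T.eM q := by
  have := V.ev_act hS T.isReg_eK T.hom_eK hq ht
  rwa [zpow_one] at this

theorem ξM_act (hS : V.E.IsSheets S) (hq : q ∈ S.M) {t : ℂ} (ht : t ≠ 0) (j : Fin T.r) :
    T.ξM j (Glob.act V.N V.e t q) = T.ξM j q := by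
  have := V.ev_act hS (T.isReg_ξK j) (T.hom_ξK j) hq ht
  rwa [zpow_zero, one_mul] at this

/-- A point is good if both special generators do not vanish. -/
def Good (χ : C.Pt) : Prop := χ (T.x T.i0) ≠ 0 ∧ χ (T.x T.i1) ≠ 0

theorem good₀ : T.Good φ₀ := ⟨T.ne0, T.ne1⟩

theorem good_pt (hS : V.E.IsSheets S) (hq : q ∈ S.M) : T.Good (V.pt hS hq) :=
  ⟨T.f0_ne hS hq, T.f1_ne hS hq⟩

variable {χ : C.Pt} {T}

theorem Good.e_ne (h : T.Good χ) : T.eP χ ≠ 0 := div_ne_zero h.2 h.1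

/-- the normalised point on the orbit -/
theorem Good.hat (h : T.Good χ) (c : ℂ) (j : Fin T.r) :
    GCone.tact (c / T.eP χ) χ (T.x j) = c ^ T.w j * T.ξP j χ := by
  rw [GCone.tact, pact_mem C.A _ _ (T.x_mem j), ξP, div_pow, inv_pow, div_eq_mul_inv]
  ring

theorem Good.x_eq (h : T.Good χ) (j : Fin T.r) : χ (T.x j) = T.eP χ ^ T.w j * T.ξP j χ := by
  have h1 := h.hat (T.eP χ) j
  rw [div_self h.e_ne] at h1
  rw [← h1]
  show _ = pact C.A 1 χ (T.x j)
  rw [pact_one]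

theorem Good.ξ_eq (h : T.Good χ) : T.ξP T.i0 χ = T.ξP T.i1 χ := by
  have h1 := h.x_eq T.i0
  have h2 := h.x_eq T.i1
  have h3 : T.eP χ * χ (T.x T.i0) = χ (T.x T.i1) := by
    rw [eP]; exact div_mul_cancel₀ _ h.1
  rw [h1, h2, T.hw, pow_succ'] at h3
  have h4 : T.eP χ * T.eP χ ^ T.w T.i0 ≠ 0 := mul_ne_zero h.e_ne (pow_ne_zero _ h.e_ne)
  have h5 : (T.eP χ * T.eP χ ^ T.w T.i0) * T.ξP T.i0 χ =
      (T.eP χ * T.eP χ ^ T.w T.i0) * T.ξP T.i1 χ := by
    linear_combination h3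
  exact mul_left_cancel₀ h4 h5

theorem Good.ξ1_ne (h : T.Good χ) : T.ξP T.i1 χ ≠ 0 := by
  intro h0
  exact h.2 (by rw [h.x_eq T.i1, h0, mul_zero])

end Tube

end Vale.Agent.P271.H741
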